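import Mathlib

/-!
# Finite generation of the fundamental group

`fg_of_semilocal`: the fundamental group of a compact Hausdorff space which is locally path
connected and in which every point has an open neighbourhood `U` such that any two paths in `U`
with the same end points are homotopic in the whole space is finitely generated.
-/

noncomputable section

namespace Vale.Agent.P215.H579

open Set Topology unitInterval

variable {W : Type*} [TopologicalSpace W]

/-- Any two paths with the same end points which run in `U` are homotopic in the whole space. -/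
def SmallIn (U : Set W) : Prop :=
  ∀ (a b : W) (p q : Path a b), range p ⊆ U → range q ⊆ U → p.Homotopic q

/-- The class of the path `p`. -/
abbrev cl {a b : W} (p : Path a b) : Path.Homotopic.Quotient a b := Path.Homotopic.Quotient.mk p

section

variable {ι : Type*} (U : ι → Set W) (x₀ : W) (A : Set W) (γ : ∀ a : W, a ∈ A → Path x₀ a)

/-- The generators. -/
def gens : Set (FundamentalGroup W x₀) :=
  {g | (∃ (a b : W) (ha : a ∈ A) (hb : b ∈ A) (i : ι) (e : Path a b), range e ⊆ U i ∧
    g = ((cl (γ a ha)).trans (cl e)).trans (cl (γ b hb)).symm) ∨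
    ∃ h : x₀ ∈ A, g = cl (γ x₀ h)}

theorem finite_gens [Finite ι] (hA : A.Finite) (hU : ∀ i, SmallIn (U i)) :
    (gens U x₀ A γ).Finite := by
  have : gens U x₀ A γ = (⋃ (x : A × A × ι), {g | ∃ (e : Path x.1.1 x.2.1.1), range e ⊆ U x.2.2 ∧
    g = ((cl (γ x.1.1 x.1.2)).trans (cl e)).trans (cl (γ x.2.1.1 x.2.1.2)).symm}) ∪
    {g | ∃ h : x₀ ∈ A, g = cl (γ x₀ h)} := by
    ext g
    simp only [gens, mem_ofPred_eq, mem_union, mem_iUnion, Prod.exists, Subtype.exists]
    constructor
    · rintro (⟨a, b, ha, hb, i, e, he⟩ | h)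
      · exact Or.inl ⟨a, ha, b, hb, i, e, he⟩
      · exact Or.inr h
    · rintro (⟨a, ha, b, hb, i, e, he⟩ | h)
      · exact Or.inl ⟨a, b, ha, hb, i, e, he⟩
      · exact Or.inr h
  rw [this]
  have : Finite A := hA
  refine Finite.union (finite_iUnion fun x => ?_) ?_
  · refine Set.Subsingleton.finite ?_
    rintro g ⟨e, he, rfl⟩ g' ⟨e', he', rfl⟩
    have : cl e = cl e' := Path.Homotopic.Quotient.eq.2 (hU _ _ _ e e' he he')
    rw [this]
  · refine Set.Subsingleton.finite ?_
    rintro g ⟨h, rfl⟩ g' ⟨h', rfl⟩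
    rfl

/-- The property which is propagated along a path: the class `p` of paths from the base point to
`y` can be continued in `U i` to a point of `A` such that the resulting loop is in the subgroup
generated by the generators. -/
def Reach (i : ι) {y : W} (p : Path.Homotopic.Quotient x₀ y) : Prop :=
  ∃ (a : W) (ha : a ∈ A) (h : Path y a), range h ⊆ U i ∧
    (p.trans ((cl h).trans (cl (γ a ha)).symm) : FundamentalGroup W x₀) ∈
      Subgroup.closure (gens U x₀ A γ)

variable {U x₀ A γ}

theorem trans_mem {H : Subgroup (FundamentalGroup W x₀)} {g h : Path.Homotopic.Quotient x₀ x₀}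
    (hg : (g : FundamentalGroup W x₀) ∈ H) (hh : (h : FundamentalGroup W x₀) ∈ H) :
    (g.trans h : FundamentalGroup W x₀) ∈ H :=
  H.mul_mem hh hg

theorem symm_mem {H : Subgroup (FundamentalGroup W x₀)} {g : Path.Homotopic.Quotient x₀ x₀}
    (hg : (g : FundamentalGroup W x₀) ∈ H) : (g.symm : FundamentalGroup W x₀) ∈ H :=
  H.inv_mem hg

theorem Reach.move {i : ι} {y z : W} {p : Path.Homotopic.Quotient x₀ y} (h : Reach U x₀ A γ i p)
    (q : Path y z) (hq : range q ⊆ U i) : Reach U x₀ A γ i (p.trans (cl q)) := by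
  obtain ⟨a, ha, k, hk, hm⟩ := h
  refine ⟨a, ha, q.symm.trans k, ?_, ?_⟩
  · rw [Path.trans_range, Path.symm_range]
    exact union_subset hq hk
  · have : (p.trans (cl q)).trans ((cl (q.symm.trans k)).trans (cl (γ a ha)).symm) =
        p.trans ((cl k).trans (cl (γ a ha)).symm) := by
      rw [cl, cl, Path.Homotopic.Quotient.mk_trans, Path.Homotopic.Quotient.mk_symm]
      rw [Path.Homotopic.Quotient.trans_assoc, Path.Homotopic.Quotient.trans_assoc,
        ← Path.Homotopic.Quotient.trans_assoc (Path.Homotopic.Quotient.mk q),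
        Path.Homotopic.Quotient.trans_symm, Path.Homotopic.Quotient.refl_trans]
    rw [this]
    exact hm

theorem Reach.switch {i j : ι} {y b : W} {p : Path.Homotopic.Quotient x₀ y}
    (h : Reach U x₀ A γ i p) (hb : b ∈ A) (q : Path y b) (hqi : range q ⊆ U i)
    (hqj : range q ⊆ U j) : Reach U x₀ A γ j p := by
  obtain ⟨a, ha, k, hk, hm⟩ := h
  refine ⟨b, hb, q, hqj, ?_⟩
  have h1 : (((cl (γ a ha)).trans (cl (k.symm.trans q))).trans (cl (γ b hb)).symm :
      FundamentalGroup W x₀) ∈ Subgroup.closure (gens U x₀ A γ) := by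
    refine Subgroup.subset_closure (Or.inl ⟨a, b, ha, hb, i, k.symm.trans q, ?_, rfl⟩)
    rw [Path.trans_range, Path.symm_range]
    exact union_subset hk hqi
  have h2 := trans_mem hm h1
  have : (p.trans ((cl k).trans (cl (γ a ha)).symm)).trans
      (((cl (γ a ha)).trans (cl (k.symm.trans q))).trans (cl (γ b hb)).symm) =
      p.trans ((cl q).trans (cl (γ b hb)).symm) := by
    simp only [cl, Path.Homotopic.Quotient.mk_trans, Path.Homotopic.Quotient.mk_symm]
    simp only [Path.Homotopic.Quotient.trans_assoc]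
    rw [← Path.Homotopic.Quotient.trans_assoc (Path.Homotopic.Quotient.mk (γ a ha)).symm,
      Path.Homotopic.Quotient.symm_trans, Path.Homotopic.Quotient.refl_trans,
      ← Path.Homotopic.Quotient.trans_assoc (Path.Homotopic.Quotient.mk k),
      Path.Homotopic.Quotient.trans_symm, Path.Homotopic.Quotient.refl_trans]
  rw [this] at h2
  exact h2

theorem Reach.start {i : ι} {y : W} (h0 : x₀ ∈ A) (p : Path x₀ y) (hp : range p ⊆ U i) :
    Reach U x₀ A γ i (cl p) := by
  refine ⟨x₀, h0, p.symm, by rwa [Path.symm_range], ?_⟩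
  have h1 : (cl (γ x₀ h0) : FundamentalGroup W x₀) ∈ Subgroup.closure (gens U x₀ A γ) :=
    Subgroup.subset_closure (Or.inr ⟨h0, rfl⟩)
  have h2 := symm_mem h1
  have : (cl p).trans ((cl p.symm).trans (cl (γ x₀ h0)).symm) = (cl (γ x₀ h0)).symm := by
    rw [cl, cl, Path.Homotopic.Quotient.mk_symm, ← Path.Homotopic.Quotient.trans_assoc,
      Path.Homotopic.Quotient.trans_symm, Path.Homotopic.Quotient.refl_trans]
  rw [this]
  exact h2

theorem Reach.finish {i : ι} {p : Path.Homotopic.Quotient x₀ x₀} (h : Reach U x₀ A γ i p)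
    (h0 : x₀ ∈ A) : (p : FundamentalGroup W x₀) ∈ Subgroup.closure (gens U x₀ A γ) := by
  obtain ⟨a, ha, k, hk, hm⟩ := h
  have h1 : (cl (γ x₀ h0) : FundamentalGroup W x₀) ∈ Subgroup.closure (gens U x₀ A γ) :=
    Subgroup.subset_closure (Or.inr ⟨h0, rfl⟩)
  have h2 : (((cl (γ a ha)).trans (cl k.symm)).trans (cl (γ x₀ h0)).symm :
      FundamentalGroup W x₀) ∈ Subgroup.closure (gens U x₀ A γ) :=
    Subgroup.subset_closure (Or.inl ⟨a, x₀, ha, h0, i, k.symm, by rwa [Path.symm_range], rfl⟩)
  have h3 := trans_mem (trans_mem hm h2) h1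
  have : ((p.trans ((cl k).trans (cl (γ a ha)).symm)).trans
      (((cl (γ a ha)).trans (cl k.symm)).trans (cl (γ x₀ h0)).symm)).trans (cl (γ x₀ h0)) = p := by
    simp only [cl, Path.Homotopic.Quotient.mk_symm, Path.Homotopic.Quotient.trans_assoc,
      Path.Homotopic.Quotient.symm_trans, Path.Homotopic.Quotient.trans_refl]
    rw [← Path.Homotopic.Quotient.trans_assoc (Path.Homotopic.Quotient.mk (γ a ha)).symm,
      Path.Homotopic.Quotient.symm_trans, Path.Homotopic.Quotient.refl_trans,
      Path.Homotopic.Quotient.trans_symm, Path.Homotopic.Quotient.trans_refl]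
  rw [this] at h3
  exact h3

theorem Reach.finish' {i : ι} {y : W} {p : Path x₀ y} (h : Reach U x₀ A γ i (cl p))
    (h0 : x₀ ∈ A) (hy : x₀ = y) :
    (cl (p.cast rfl hy) : FundamentalGroup W x₀) ∈ Subgroup.closure (gens U x₀ A γ) := by
  subst hy
  exact h.finish h0

end

/-- **Finite generation of the fundamental group** of a compact Hausdorff space which is locally
path connected and semilocally simply connected. -/
theorem fg_of_semilocal [CompactSpace W] [T2Space W] [LocallyPathConnectedSpace W]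
    (h : ∀ w : W, ∃ U : Set W, IsOpen U ∧ w ∈ U ∧ SmallIn U) (x₀ : W) :
    Group.FG (FundamentalGroup W x₀) := by
  classical
  choose O hO hwO hsO using h
  obtain ⟨t, ht⟩ := isCompact_univ.elim_finite_subcover O hO
    (fun w _ => mem_iUnion.2 ⟨w, hwO w⟩)
  let U : t → Set W := fun i => O i
  have hUo : ∀ i, IsOpen (U i) := fun i => hO i
  have hUs : ∀ i, SmallIn (U i) := fun i => hsO i
  have hUc : ⋃ i, U i = univ := by
    refine eq_univ_of_forall fun w => ?_
    have := ht (mem_univ w)
    simp only [mem_iUnion] at this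
    obtain ⟨i, hi, hw⟩ := this
    exact mem_iUnion.2 ⟨⟨i, hi⟩, hw⟩
  obtain ⟨V, hVc, hVo, hVU⟩ := exists_iUnion_eq_closure_subset hUo
    (fun x => Set.toFinite _) hUc
  have key : ∀ i j : t, ∃ B : Finset W, ∀ y ∈ closure (V i) ∩ closure (V j), ∃ b ∈ B,
      JoinedIn (U i ∩ U j) y b := by
    intro i j
    have hK : IsCompact (closure (V i) ∩ closure (V j)) :=
      (isClosed_closure.inter isClosed_closure).isCompact
    obtain ⟨B, -, hB⟩ := hK.elim_nhds_subcover (fun x => pathComponentIn (U i ∩ U j) x) (by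
      intro x hx
      have hx' : x ∈ U i ∩ U j := ⟨hVU i hx.1, hVU j hx.2⟩
      exact (((hUo i).inter (hUo j)).pathComponentIn x).mem_nhds
        (mem_pathComponentIn_self hx'))
    refine ⟨B, fun y hy => ?_⟩
    have := hB hy
    simp only [mem_iUnion] at this
    obtain ⟨b, hb, hyb⟩ := this
    exact ⟨b, hb, JoinedIn.symm hyb⟩
  choose B hB using key
  let A : Set W := {a | (a = x₀ ∨ ∃ i j, a ∈ B i j) ∧ Joined x₀ a}
  have hA : A.Finite := by
    have : A ⊆ {x₀} ∪ ⋃ (x : t × t), (B x.1 x.2 : Set W) := by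
      rintro a ⟨rfl | ⟨i, j, h⟩, -⟩
      · exact Or.inl rfl
      · exact Or.inr (mem_iUnion.2 ⟨(i, j), h⟩)
    exact ((finite_singleton _).union (finite_iUnion fun x => Finset.finite_toSet _)).subset this
  let γ : ∀ a : W, a ∈ A → Path x₀ a := fun a ha => ha.2.somePath
  have h0 : x₀ ∈ A := ⟨Or.inl rfl, Joined.refl _⟩
  rw [Group.fg_iff]
  refine ⟨gens U x₀ A γ, ?_, finite_gens U x₀ A γ hA hUs⟩
  rw [eq_top_iff]
  rintro g -
  obtain ⟨f, rfl⟩ := Path.Homotopic.Quotient.mk_surjective g
  have hcov : (univ : Set I) ⊆ ⋃ i, f ⁻¹' V i := by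
    intro s _
    have : f s ∈ ⋃ i, V i := by rw [hVc]; trivial
    simpa using this
  obtain ⟨τ, hτ0, hτm, ⟨n, hn⟩, hτ⟩ := exists_monotone_Icc_subset_open_cover_unitInterval
    (fun i => (hVo i).preimage f.continuous) hcov
  let q : ∀ m, Path x₀ (f (τ m)) := fun m => (f.subpath 0 (τ m)).cast f.source.symm rfl
  have main : ∀ m (i : t), f (τ m) ∈ closure (V i) → Reach U x₀ A γ i (cl (q m)) := by
    intro m
    induction m with
    | zero =>
      intro i hi
      refine Reach.start h0 (q 0) ?_
      rintro _ ⟨s, rfl⟩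
      have : q 0 s = f (τ 0) := by
        change f (Icc.convexComb 0 (τ 0) s) = f (τ 0)
        rw [hτ0]
        simp
      rw [this]
      exact hVU i hi
    | succ m ih =>
      intro j hj
      obtain ⟨i, hi⟩ := hτ m
      have hmem : ∀ s ∈ Icc (τ m) (τ (m + 1)), f s ∈ V i := fun s hs => hi hs
      have hle : τ m ≤ τ (m + 1) := hτm (Nat.le_succ m)
      have h1 := ih i (subset_closure (hmem _ ⟨le_rfl, hle⟩))
      have h2 := h1.move (f.subpath (τ m) (τ (m + 1))) (by
        rw [Path.range_subpath_of_le _ _ _ hle]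
        rintro _ ⟨s, hs, rfl⟩
        exact hVU i (subset_closure (hmem s hs)))
      have h3 : (cl (q m)).trans (cl (f.subpath (τ m) (τ (m + 1)))) = cl (q (m + 1)) := by
        rw [← Path.Homotopic.Quotient.mk_trans, Path.Homotopic.Quotient.eq]
        have h4 := ((Path.Homotopy.subpathTransSubpath f 0 (τ m) (τ (m + 1))).pathCast
          f.source.symm rfl)
        exact ⟨h4.cast (by ext; rfl) (by ext; rfl)⟩
      rw [h3] at h2
      obtain ⟨b, hb, hyb⟩ := hB i j (f (τ (m + 1)))
        ⟨subset_closure (hmem _ ⟨hle, le_rfl⟩), hj⟩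
      have hj1 : Joined x₀ (f (τ (m + 1))) := ⟨q (m + 1)⟩
      have hbA : b ∈ A := ⟨Or.inr ⟨i, j, hb⟩, hj1.trans hyb.joined⟩
      have hr : ∀ s, hyb.somePath s ∈ U i ∩ U j := hyb.somePath_mem
      exact h2.switch hbA hyb.somePath (by rintro _ ⟨s, rfl⟩; exact (hr s).1)
        (by rintro _ ⟨s, rfl⟩; exact (hr s).2)
  have hx₀ : x₀ ∈ ⋃ i, V i := by rw [hVc]; trivial
  obtain ⟨i, hi⟩ := mem_iUnion.1 hx₀
  have hfin := main n i (by rw [hn n le_rfl, f.target]; exact subset_closure hi)
  have hy : x₀ = f (τ n) := by rw [hn n le_rfl, f.target]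
  have := hfin.finish' h0 hy
  have hq : (q n).cast rfl hy = f := by
    ext s
    change f (Icc.convexComb 0 (τ n) s) = f s
    rw [hn n le_rfl]
    simp
  rw [hq] at this
  exact this

end Vale.Agent.P215.H579
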