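import Mathlib
import Vale.Agent.P215.H579.FG

/-!
# Squares and contractions

A contraction of an open set in the space shows that paths in the open set with the same end points
are homotopic in the space.
-/

noncomputable section

namespace Vale.Agent.P215.H579

open Set Topology unitInterval

variable {W : Type*} [TopologicalSpace W]

/-- The bottom, right, left and top edges of the unit square. -/
def edge1 : Path ((0, 0) : I × I) (1, 0) where
  toFun s := (s, 0)
  source' := rfl
  target' := rfl

/-- The right edge. -/
def edge2 : Path ((1, 0) : I × I) (1, 1) where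
  toFun s := (1, s)
  source' := rfl
  target' := rfl

/-- The left edge. -/
def edge3 : Path ((0, 0) : I × I) (0, 1) where
  toFun s := (0, s)
  source' := rfl
  target' := rfl

/-- The top edge. -/
def edge4 : Path ((0, 1) : I × I) (1, 1) where
  toFun s := (s, 1)
  source' := rfl
  target' := rfl

theorem contractibleSpace_I : ContractibleSpace I :=
  (convex_Icc (0 : ℝ) 1).contractibleSpace ⟨0, by simp⟩

/-- The two ways around a square are homotopic. -/
theorem square (F : C(I × I, W)) {a b c d : W} (p : Path a b) (r : Path b d) (l : Path a c)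
    (t : Path c d) (hp : ∀ s, F (s, 0) = p s) (hr : ∀ s, F (1, s) = r s)
    (hl : ∀ s, F (0, s) = l s) (ht : ∀ s, F (s, 1) = t s) :
    (p.trans r).Homotopic (l.trans t) := by
  obtain rfl : F (0, 0) = a := by rw [hp, p.source]
  obtain rfl : F (1, 0) = b := by rw [hp, p.target]
  obtain rfl : F (0, 1) = c := by rw [hl, l.target]
  obtain rfl : F (1, 1) = d := by rw [hr, r.target]
  obtain rfl : edge1.map F.continuous = p := by ext s; exact hp s
  obtain rfl : edge2.map F.continuous = r := by ext s; exact hr s
  obtain rfl : edge3.map F.continuous = l := by ext s; exact hl s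
  obtain rfl : edge4.map F.continuous = t := by ext s; exact ht s
  rw [← Path.map_trans, ← Path.map_trans]
  have := contractibleSpace_I
  exact (SimplyConnectedSpace.paths_homotopic _ _).map F

/-- A set which is contractible in the space is small. -/
theorem smallIn_of_contraction {U : Set W} (H : W × I → W) (w : W)
    (hH : ContinuousOn H (U ×ˢ univ)) (h0 : ∀ u ∈ U, H (u, 0) = u) (h1 : ∀ u ∈ U, H (u, 1) = w) :
    SmallIn U := by
  have track : ∀ a ∈ U, ∃ τ : Path a w, ∀ s, τ s = H (a, s) := by
    intro a ha
    refine ⟨⟨⟨fun s => H (a, s), ?_⟩, h0 a ha, h1 a ha⟩, fun s => rfl⟩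
    exact hH.comp_continuous (by fun_prop) (fun s => ⟨ha, trivial⟩)
  have key : ∀ (a b : W) (ha : a ∈ U) (hb : b ∈ U) (τa : Path a w) (τb : Path b w)
      (_ : ∀ s, τa s = H (a, s)) (_ : ∀ s, τb s = H (b, s)) (p : Path a b) (_ : range p ⊆ U),
      cl p = (cl τa).trans (cl τb).symm := by
    intro a b ha hb τa τb hτa hτb p hp
    let F : C(I × I, W) := ⟨fun x => H (p x.1, x.2), hH.comp_continuous (by fun_prop)
      (fun x => ⟨hp ⟨x.1, rfl⟩, trivial⟩)⟩
    have := square F p τb τa (Path.refl w) (fun s => h0 _ (hp ⟨s, rfl⟩))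
      (fun s => by change H (p 1, s) = _; rw [p.target, hτb])
      (fun s => by change H (p 0, s) = _; rw [p.source, hτa])
      (fun s => by change H (p s, 1) = _; rw [h1 _ (hp ⟨s, rfl⟩)]; rfl)
    have h2 := Path.Homotopic.Quotient.eq.2 this
    rw [Path.Homotopic.Quotient.mk_trans, Path.Homotopic.Quotient.mk_trans,
      Path.Homotopic.Quotient.mk_refl, Path.Homotopic.Quotient.trans_refl] at h2
    rw [cl, cl, cl, ← h2, Path.Homotopic.Quotient.trans_assoc, Path.Homotopic.Quotient.trans_symm,
      Path.Homotopic.Quotient.trans_refl]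
  intro a b p q hp hq
  have ha : a ∈ U := hp ⟨0, p.source⟩
  have hb : b ∈ U := hp ⟨1, p.target⟩
  obtain ⟨τa, hτa⟩ := track a ha
  obtain ⟨τb, hτb⟩ := track b hb
  rw [← Path.Homotopic.Quotient.eq]
  exact (key a b ha hb τa τb hτa hτb p hp).trans (key a b ha hb τa τb hτa hτb q hq).symm

end Vale.Agent.P215.H579
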