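import Mathlib
import Vale.Agent.P215.H579.Square

/-!
# Spaces glued from polyhedral blocks

`X = {x : B × E // x.2 ∈ reg x.1}` is a disjoint union of subsets of a normed space, and `W` is a
quotient of `X` by an equivalence relation with finite classes, such that near each point the
blocks are star-shaped and the relation is compatible with the stars.  Then `W` is Hausdorff,
locally path connected and locally contractible.
-/

noncomputable section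

namespace Vale.Agent.P215.H579

open Set Topology unitInterval Filter

variable {B E : Type} [TopologicalSpace B] [DiscreteTopology B] [NormedAddCommGroup E]
  [NormedSpace ℝ E]

/-- The point `(1 - s) z + s x`. -/
abbrev pt (z x : E) (s : ℝ) : E := AffineMap.lineMap z x s

theorem dist_pt_le (z x : E) {s : ℝ} (hs : s ∈ Icc (0 : ℝ) 1) : dist (pt z x s) x ≤ dist z x := by
  rw [pt, dist_lineMap_right, Real.norm_eq_abs, abs_of_nonneg (by linarith [hs.2])]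
  nlinarith [hs.1, dist_nonneg (x := z) (y := x)]

/-- The points of `A` near `x` are joined to `x` by segments in `A`. -/
def Star (A : Set E) (x : E) (ρ : ℝ) : Prop :=
  ∀ z ∈ A, dist z x < ρ → ∀ s ∈ Icc (0 : ℝ) 1, pt z x s ∈ A

/-- The disjoint union of the blocks. -/
abbrev Pts (reg : B → Set E) : Type := {x : B × E // x.2 ∈ reg x.1}

variable {reg : B → Set E}

/-- Neighbourhoods. -/
def Nb (x : Pts reg) (ρ : ℝ) : Set (Pts reg) := {z | z.1.1 = x.1.1 ∧ dist z.1.2 x.1.2 < ρ}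

theorem isOpen_Nb (x : Pts reg) (ρ : ℝ) : IsOpen (Nb x ρ) := by
  have h1 : IsOpen {z : Pts reg | z.1.1 = x.1.1} :=
    (isOpen_discrete {x.1.1}).preimage (continuous_fst.comp continuous_subtype_val)
  have h2 : IsOpen {z : Pts reg | dist z.1.2 x.1.2 < ρ} :=
    isOpen_lt (by fun_prop) continuous_const
  exact h1.inter h2

theorem mem_Nb_self (x : Pts reg) {ρ : ℝ} (hρ : 0 < ρ) : x ∈ Nb x ρ := ⟨rfl, by simpa using hρ⟩

theorem Nb_mono (x : Pts reg) {ρ ρ' : ℝ} (h : ρ' ≤ ρ) : Nb x ρ' ⊆ Nb x ρ :=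
  fun _ hz => ⟨hz.1, hz.2.trans_le h⟩

theorem exists_Nb_subset {x : Pts reg} {O : Set (Pts reg)} (hO : O ∈ 𝓝 x) :
    ∃ ρ > 0, Nb x ρ ⊆ O := by
  have h := ((hasBasis_pure x.1.1).prod (Metric.nhds_basis_ball (x := x.1.2))).comap
    (Subtype.val : Pts reg → B × E)
  have h2 : 𝓝 x = comap Subtype.val (pure x.1.1 ×ˢ 𝓝 x.1.2) := by
    rw [nhds_subtype_eq_comap, ← nhds_discrete, ← nhds_prod_eq]
  rw [h2, h.mem_iff] at hO
  obtain ⟨⟨_, ρ⟩, ⟨-, hρ⟩, hs⟩ := hO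
  refine ⟨ρ, hρ, fun z hz => hs ?_⟩
  exact ⟨hz.1, hz.2⟩

theorem ev_of_exists {P : ℝ → Prop} (hmono : ∀ ρ ρ', ρ' ≤ ρ → P ρ → P ρ')
    (h : ∃ ρ > 0, P ρ) : ∀ᶠ ρ in 𝓝[>] (0 : ℝ), P ρ := by
  obtain ⟨ρ, hρ, h⟩ := h
  filter_upwards [Ioc_mem_nhdsGT hρ] with ρ' hρ' using hmono _ _ hρ'.2 h

theorem ev_disjoint {x y : Pts reg} (h : x ≠ y) :
    ∀ᶠ ρ in 𝓝[>] (0 : ℝ), Disjoint (Nb x ρ) (Nb y ρ) := by
  refine ev_of_exists (fun ρ ρ' hρ hd => hd.mono (Nb_mono x hρ) (Nb_mono y hρ)) ?_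
  by_cases hb : x.1.1 = y.1.1
  · have hd : x.1.2 ≠ y.1.2 := fun h' => h (Subtype.ext (Prod.ext hb h'))
    refine ⟨dist x.1.2 y.1.2 / 2, half_pos (dist_pos.2 hd), ?_⟩
    rw [Set.disjoint_left]
    rintro z ⟨-, h1⟩ ⟨-, h2⟩
    have := dist_triangle_left x.1.2 y.1.2 z.1.2
    linarith
  · refine ⟨1, one_pos, ?_⟩
    rw [Set.disjoint_left]
    rintro z ⟨h1, -⟩ ⟨h2, -⟩
    exact hb (h1.symm.trans h2)

/-- The hypotheses on the relation. -/
structure Gluing (reg : B → Set E) (S : Pts reg → Pts reg → Prop) : Prop where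
  equiv : Equivalence S
  fin : ∀ x, {y | S x y}.Finite
  star : ∀ x : Pts reg, ∃ ρ > 0, Star (reg x.1.1) x.1.2 ρ
  loc : ∀ x : Pts reg, ∃ ρ > 0, ∀ z ∈ Nb x ρ, ∀ z' : Pts reg, S z z' → ∃ y : Pts reg, S x y ∧
    z'.1.1 = y.1.1 ∧ dist z'.1.2 y.1.2 ≤ dist z.1.2 x.1.2 ∧ ∀ s ∈ Icc (0 : ℝ) 1, ∀ c c' : Pts reg,
      c.1 = (x.1.1, pt z.1.2 x.1.2 s) → c'.1 = (y.1.1, pt z'.1.2 y.1.2 s) → S c c'

theorem Gluing.locallyPathConnectedSpace {S : Pts reg → Pts reg → Prop} (h : Gluing reg S) :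
    LocallyPathConnectedSpace (Pts reg) := by
  rw [locallyPathConnectedSpace_iff_pathComponentIn_mem_nhds]
  intro x u hu hx
  obtain ⟨ρ₁, hρ₁, hs⟩ := exists_Nb_subset (hu.mem_nhds hx)
  obtain ⟨ρ₂, hρ₂, hst⟩ := h.star x
  refine mem_of_superset ((isOpen_Nb x (min ρ₁ ρ₂)).mem_nhds (mem_Nb_self x (lt_min hρ₁ hρ₂))) ?_
  intro z hz
  have hz2 : dist z.1.2 x.1.2 < ρ₂ := hz.2.trans_le (min_le_right _ _)
  have hz1 : dist z.1.2 x.1.2 < ρ₁ := hz.2.trans_le (min_le_left _ _)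
  have hzr : z.1.2 ∈ reg x.1.1 := hz.1 ▸ z.2
  refine JoinedIn.symm ⟨⟨⟨fun s => ⟨(x.1.1, pt z.1.2 x.1.2 s), hst _ hzr hz2 s s.2⟩, ?_⟩,
    ?_, ?_⟩, ?_⟩
  · refine Continuous.subtype_mk ?_ _
    exact continuous_const.prodMk (by dsimp [pt, AffineMap.lineMap_apply]; fun_prop)
  · refine Subtype.ext (Prod.ext hz.1.symm ?_)
    simp [pt]
  · refine Subtype.ext (Prod.ext rfl ?_)
    simp [pt]
  · intro s
    refine hs ⟨rfl, ?_⟩
    exact (dist_pt_le _ _ s.2).trans_lt hz1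

section

variable {S : Pts reg → Pts reg → Prop}

/-- The local condition on the relation at `x`. -/
def Loc (S : Pts reg → Pts reg → Prop) (x : Pts reg) (ρ : ℝ) : Prop :=
  ∀ z ∈ Nb x ρ, ∀ z' : Pts reg, S z z' → ∃ y : Pts reg, S x y ∧
    z'.1.1 = y.1.1 ∧ dist z'.1.2 y.1.2 ≤ dist z.1.2 x.1.2 ∧ ∀ s ∈ Icc (0 : ℝ) 1, ∀ c c' : Pts reg,
      c.1 = (x.1.1, pt z.1.2 x.1.2 s) → c'.1 = (y.1.1, pt z'.1.2 y.1.2 s) → S c c'

/-- The neighbourhood of the class of `x`. -/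
def NN (S : Pts reg → Pts reg → Prop) (x : Pts reg) (ρ : ℝ) : Set (Pts reg) :=
  {z | ∃ y, S x y ∧ z ∈ Nb y ρ}

theorem isOpen_NN (x : Pts reg) (ρ : ℝ) : IsOpen (NN S x ρ) := by
  have : NN S x ρ = ⋃ y ∈ {y | S x y}, Nb y ρ := by
    ext z
    simp [NN]
  rw [this]
  exact isOpen_biUnion fun y _ => isOpen_Nb y ρ

/-- Small radii. -/
structure Small (S : Pts reg → Pts reg → Prop) (x : Pts reg) (ρ : ℝ) : Prop where
  disj : ∀ y, S x y → ∀ y', S x y' → y ≠ y' → Disjoint (Nb y ρ) (Nb y' ρ)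
  star : ∀ y, S x y → Star (reg y.1.1) y.1.2 ρ
  loc : ∀ y, S x y → Loc S y ρ

theorem Gluing.ev_small (h : Gluing reg S) (x : Pts reg) : ∀ᶠ ρ in 𝓝[>] (0 : ℝ), Small S x ρ := by
  have h1 : ∀ᶠ ρ in 𝓝[>] (0 : ℝ), ∀ y ∈ {y | S x y}, ∀ y' ∈ {y | S x y}, y ≠ y' →
      Disjoint (Nb y ρ) (Nb y' ρ) := by
    rw [eventually_all_finite (h.fin x)]
    intro y _
    rw [eventually_all_finite (h.fin x)]
    intro y' _
    by_cases hy : y = y'
    · exact Eventually.of_forall fun ρ h' => absurd hy h'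
    · filter_upwards [ev_disjoint hy] with ρ hρ _ using hρ
  have h2 : ∀ᶠ ρ in 𝓝[>] (0 : ℝ), ∀ y ∈ {y | S x y}, Star (reg y.1.1) y.1.2 ρ := by
    rw [eventually_all_finite (h.fin x)]
    intro y _
    exact ev_of_exists (fun ρ ρ' hρ hs z hz hd => hs z hz (hd.trans_le hρ)) (h.star y)
  have h3 : ∀ᶠ ρ in 𝓝[>] (0 : ℝ), ∀ y ∈ {y | S x y}, Loc S y ρ := by
    rw [eventually_all_finite (h.fin x)]
    intro y _
    exact ev_of_exists (fun ρ ρ' hρ hs z hz => hs z (Nb_mono _ hρ hz)) (h.loc y)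
  filter_upwards [h1, h2, h3] with ρ a1 a2 a3 using ⟨a1, a2, a3⟩

theorem Gluing.saturated (h : Gluing reg S) {x : Pts reg} {ρ : ℝ} (hρ : Small S x ρ)
    {z z' : Pts reg} (hz : z ∈ NN S x ρ) (hS : S z z') : z' ∈ NN S x ρ := by
  obtain ⟨y, hy, hzy⟩ := hz
  obtain ⟨y', hy', h1, h2, -⟩ := hρ.loc y hy z hzy z' hS
  exact ⟨y', h.equiv.trans hy hy', h1, h2.trans_lt hzy.2⟩

variable {r : Pts reg → Pts reg → Prop}

theorem Gluing.preimage_image (h : Gluing reg S)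
    (hq : ∀ x y : Pts reg, Quot.mk r x = Quot.mk r y ↔ S x y) {x : Pts reg} {ρ : ℝ}
    (hρ : Small S x ρ) : Quot.mk r ⁻¹' (Quot.mk r '' NN S x ρ) = NN S x ρ := by
  refine subset_antisymm ?_ (subset_preimage_image _ _)
  rintro z' ⟨z, hz, hzz⟩
  exact h.saturated hρ hz ((hq _ _).1 hzz)

theorem Gluing.isOpen_image (h : Gluing reg S)
    (hq : ∀ x y : Pts reg, Quot.mk r x = Quot.mk r y ↔ S x y) {x : Pts reg} {ρ : ℝ}
    (hρ : Small S x ρ) : IsOpen (Quot.mk r '' NN S x ρ) := by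
  rw [← isQuotientMap_quot_mk.isOpen_preimage, h.preimage_image hq hρ]
  exact isOpen_NN x ρ

theorem Gluing.t2Space (h : Gluing reg S)
    (hq : ∀ x y : Pts reg, Quot.mk r x = Quot.mk r y ↔ S x y) : T2Space (Quot r) := by
  refine ⟨?_⟩
  rintro ⟨x⟩ ⟨x'⟩ hne
  have hS : ¬ S x x' := fun h' => hne ((hq _ _).2 h')
  have h1 : ∀ᶠ ρ in 𝓝[>] (0 : ℝ), ∀ y ∈ {y | S x y}, ∀ y' ∈ {y | S x' y},
      Disjoint (Nb y ρ) (Nb y' ρ) := by
    rw [eventually_all_finite (h.fin x)]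
    intro y hy
    rw [eventually_all_finite (h.fin x')]
    intro y' hy'
    refine ev_disjoint ?_
    rintro rfl
    exact hS (h.equiv.trans hy (h.equiv.symm hy'))
  obtain ⟨ρ, hd, hs, hs', hρ⟩ :=
    (h1.and ((h.ev_small x).and ((h.ev_small x').and self_mem_nhdsWithin))).exists
  refine ⟨_, _, h.isOpen_image hq hs, h.isOpen_image hq hs',
    ⟨x, ⟨x, h.equiv.refl x, mem_Nb_self x hρ⟩, rfl⟩,
    ⟨x', ⟨x', h.equiv.refl x', mem_Nb_self x' hρ⟩, rfl⟩, ?_⟩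
  rw [Set.disjoint_left]
  rintro _ ⟨z, hz, rfl⟩ ⟨z', hz', hzz⟩
  have hz'' := h.saturated hs' hz' ((hq _ _).1 hzz)
  obtain ⟨y, hy, hzy⟩ := hz
  obtain ⟨y', hy', hzy'⟩ := hz''
  exact (Set.disjoint_left.1 (hd y hy y' hy')) hzy hzy'

/-- The contraction of a neighbourhood of the class of `x`. -/
def contr (S : Pts reg → Pts reg → Prop) (x : Pts reg) (ρ : ℝ) (z : Pts reg × I) : Pts reg :=
  open Classical in
  if h : ∃ c : Pts reg, ∃ y, S x y ∧ z.1 ∈ Nb y ρ ∧ c.1 = (y.1.1, pt z.1.1.2 y.1.2 z.2) then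
    h.choose else z.1

theorem contr_eq {x y z : Pts reg} {ρ : ℝ} (hρ : Small S x ρ) (hy : S x y) (hz : z ∈ Nb y ρ)
    (s : I) : (contr S x ρ (z, s)).1 = (y.1.1, pt z.1.2 y.1.2 s) := by
  have h : ∃ c : Pts reg, ∃ y, S x y ∧ z ∈ Nb y ρ ∧ c.1 = (y.1.1, pt z.1.2 y.1.2 s) :=
    ⟨⟨(y.1.1, pt z.1.2 y.1.2 s), hρ.star y hy z.1.2 (hz.1 ▸ z.2) hz.2 s s.2⟩, y, hy, hz, rfl⟩
  rw [contr, dif_pos h]
  obtain ⟨y', hy', hz', hc⟩ := h.choose_spec
  have : y = y' := by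
    by_contra hne
    exact (Set.disjoint_left.1 (hρ.disj y hy y' hy' hne)) hz hz'
  rw [hc, this]

theorem continuousOn_contr {x : Pts reg} {ρ : ℝ} (hρ : Small S x ρ) :
    ContinuousOn (contr S x ρ) (NN S x ρ ×ˢ univ) := by
  rintro ⟨z, s⟩ ⟨⟨y, hy, hz⟩, -⟩
  refine ContinuousAt.continuousWithinAt ?_
  rw [ContinuousAt, tendsto_subtype_rng]
  have h1 : ∀ᶠ w : Pts reg × I in 𝓝 (z, s), w.1 ∈ Nb y ρ :=
    continuous_fst.continuousAt.eventually_mem ((isOpen_Nb y ρ).mem_nhds hz)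
  have h2 : (fun w : Pts reg × I => (contr S x ρ w).1) =ᶠ[𝓝 (z, s)]
      fun w => (y.1.1, pt w.1.1.2 y.1.2 w.2) := by
    filter_upwards [h1] with w hw using contr_eq hρ hy hw w.2
  rw [contr_eq hρ hy hz s]
  refine Tendsto.congr' h2.symm ?_
  have h3 : Continuous (fun w : Pts reg × I => ((y.1.1, pt w.1.1.2 y.1.2 w.2) : B × E)) :=
    continuous_const.prodMk (by dsimp [pt, AffineMap.lineMap_apply]; fun_prop)
  exact h3.continuousAt (x := (z, s))

theorem Gluing.smallIn (h : Gluing reg S) [CompactSpace (Pts reg)]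
    (hq : ∀ x y : Pts reg, Quot.mk r x = Quot.mk r y ↔ S x y) (w : Quot r) :
    ∃ U : Set (Quot r), IsOpen U ∧ w ∈ U ∧ SmallIn U := by
  classical
  have := h.t2Space hq
  obtain ⟨x⟩ := w
  obtain ⟨ρ, hs, hρ⟩ := ((h.ev_small x).and self_mem_nhdsWithin).exists
  refine ⟨Quot.mk r '' NN S x ρ, h.isOpen_image hq hs,
    ⟨x, ⟨x, h.equiv.refl x, mem_Nb_self x hρ⟩, rfl⟩, ?_⟩
  -- compatibility of the contraction with the relation
  have hcomp : ∀ z z' : Pts reg, r z z' → ∀ s : I, (if z ∈ NN S x ρ then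
      Quot.mk r (contr S x ρ (z, s)) else Quot.mk r z) = (if z' ∈ NN S x ρ then
      Quot.mk r (contr S x ρ (z', s)) else Quot.mk r z') := by
    intro z z' hr s
    have hS : S z z' := (hq _ _).1 (Quot.sound hr)
    by_cases hz : z ∈ NN S x ρ
    · have hz' := h.saturated hs hz hS
      rw [if_pos hz, if_pos hz', hq]
      obtain ⟨y, hy, hzy⟩ := hz
      obtain ⟨y', hy', h1, h2, h3⟩ := hs.loc y hy z hzy z' hS
      exact h3 s s.2 _ _ (contr_eq hs hy hzy s)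
        (contr_eq hs (h.equiv.trans hy hy') ⟨h1, h2.trans_lt hzy.2⟩ s)
    · have hz' : z' ∉ NN S x ρ := fun h' => hz (h.saturated hs h' (h.equiv.symm hS))
      rw [if_neg hz, if_neg hz']
      exact Quot.sound hr
  let H : Quot r × I → Quot r := fun p => Quot.lift (fun z => if z ∈ NN S x ρ then
      Quot.mk r (contr S x ρ (z, p.2)) else Quot.mk r z) (fun z z' hr => hcomp z z' hr p.2) p.1
  have hqm : IsQuotientMap (Prod.map (Quot.mk r) id : Pts reg × I → Quot r × I) :=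
    IsQuotientMap.of_surjective_continuous
      (Function.Surjective.prodMap Quot.mk_surjective Function.surjective_id)
      (continuous_quot_mk.prodMap continuous_id)
  refine smallIn_of_contraction H (Quot.mk r x) ?_ ?_ ?_
  · rw [hqm.continuousOn_isOpen_iff ((h.isOpen_image hq hs).prod isOpen_univ)]
    have hpre : Prod.map (Quot.mk r) id ⁻¹' ((Quot.mk r '' NN S x ρ) ×ˢ (univ : Set I)) =
        NN S x ρ ×ˢ univ := by
      ext ⟨z, s⟩
      have := Set.ext_iff.1 (h.preimage_image hq hs) z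
      simpa using this
    rw [hpre]
    refine (continuous_quot_mk.comp_continuousOn (continuousOn_contr hs)).congr ?_
    rintro ⟨z, s⟩ ⟨hz, -⟩
    exact if_pos hz
  · rintro _ ⟨z, hz, rfl⟩
    change (if z ∈ NN S x ρ then _ else _) = _
    rw [if_pos hz]
    obtain ⟨y, hy, hzy⟩ := hz
    congr 1
    refine Subtype.ext ((contr_eq hs hy hzy 0).trans (Prod.ext hzy.1.symm ?_))
    simp [pt]
  · rintro _ ⟨z, hz, rfl⟩
    change (if z ∈ NN S x ρ then _ else _) = _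
    rw [if_pos hz, hq]
    obtain ⟨y, hy, hzy⟩ := hz
    have : contr S x ρ (z, 1) = y := by
      refine Subtype.ext ((contr_eq hs hy hzy 1).trans (Prod.ext rfl ?_))
      simp [pt]
    rw [this]
    exact h.equiv.symm hy

/-- **Finite generation of the fundamental group of a space glued from polyhedral blocks.** -/
theorem Gluing.fg (h : Gluing reg S) [CompactSpace (Pts reg)]
    (hq : ∀ x y : Pts reg, Quot.mk r x = Quot.mk r y ↔ S x y) (w : Quot r) :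
    Group.FG (FundamentalGroup (Quot r) w) := by
  have := h.t2Space hq
  have := h.locallyPathConnectedSpace
  exact fg_of_semilocal (fun w => h.smallIn hq w) w

end

end Vale.Agent.P215.H579
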