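import Mathlib
import Vale.Agent.P215.H579.Glue

/-!
# Gluings along finitely many cells
-/

noncomputable section

namespace Vale.Agent.P215.H579

open Set Topology unitInterval Filter

variable {B E : Type} [TopologicalSpace B] [DiscreteTopology B] [NormedAddCommGroup E]
  [NormedSpace ℝ E]

/-- Polyhedron-like sets: closed and star-shaped near each point. -/
def PL (A : Set E) : Prop := ∀ x, ∃ ρ > 0, Star A x ρ

theorem Star.mono {A : Set E} {x : E} {ρ ρ' : ℝ} (h : Star A x ρ) (hρ : ρ' ≤ ρ) : Star A x ρ' :=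
  fun z hz hd => h z hz (hd.trans_le hρ)

theorem PL.isClosed {A : Set E} (h : PL A) : IsClosed A := by
  rw [← closure_subset_iff_isClosed]
  intro x hx
  obtain ⟨ρ, hρ, hs⟩ := h x
  obtain ⟨z, hz, hd⟩ := Metric.mem_closure_iff.1 hx ρ hρ
  have := hs z hz (by rwa [dist_comm]) 1 (by simp)
  simpa [pt] using this

theorem PL.inter {A A' : Set E} (h : PL A) (h' : PL A') : PL (A ∩ A') := by
  intro x
  obtain ⟨ρ, hρ, hs⟩ := h x
  obtain ⟨ρ', hρ', hs'⟩ := h' x
  exact ⟨min ρ ρ', lt_min hρ hρ', fun z hz hd s h01 =>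
    ⟨hs z hz.1 (hd.trans_le (min_le_left _ _)) s h01,
      hs' z hz.2 (hd.trans_le (min_le_right _ _)) s h01⟩⟩

theorem PL.union {A A' : Set E} (h : PL A) (h' : PL A') : PL (A ∪ A') := by
  intro x
  obtain ⟨ρ, hρ, hs⟩ := h x
  obtain ⟨ρ', hρ', hs'⟩ := h' x
  refine ⟨min ρ ρ', lt_min hρ hρ', fun z hz hd s h01 => ?_⟩
  rcases hz with hz | hz
  · exact Or.inl (hs z hz (hd.trans_le (min_le_left _ _)) s h01)
  · exact Or.inr (hs' z hz (hd.trans_le (min_le_right _ _)) s h01)

theorem PL.of_closed_convex {A : Set E} (h : IsClosed A) (h' : Convex ℝ A) : PL A := by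
  intro x
  by_cases hx : x ∈ A
  · exact ⟨1, one_pos, fun z hz _ s hs => h'.lineMap_mem hz hx hs⟩
  · obtain ⟨ρ, hρ, hb⟩ := Metric.isOpen_iff.1 h.isOpen_compl x hx
    exact ⟨ρ, hρ, fun z hz hd => absurd hz (hb hd)⟩

/-- Affine continuous maps. -/
def Aff {F : Type} [NormedAddCommGroup F] [NormedSpace ℝ F] (f : E → F) : Prop :=
  Continuous f ∧ ∀ (z x : E) (s : ℝ), f (pt z x s) = pt (f z) (f x) s

theorem PL.preimage {F : Type} [NormedAddCommGroup F] [NormedSpace ℝ F] {f : E → F} (hf : Aff f)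
    {A : Set F} (h : PL A) : PL (f ⁻¹' A) := by
  intro x
  obtain ⟨ρ, hρ, hs⟩ := h (f x)
  obtain ⟨δ, hδ, hd⟩ := Metric.continuous_iff.1 hf.1 x ρ hρ
  refine ⟨δ, hδ, fun z hz hzx s h01 => ?_⟩
  have := hs (f z) hz (hd z hzx) s h01
  rwa [← hf.2] at this

theorem PL.setOf_const (p : Prop) : PL {_x : E | p} := by
  by_cases hp : p
  · exact fun x => ⟨1, one_pos, fun z hz _ s _ => hp⟩
  · exact fun x => ⟨1, one_pos, fun z hz _ s _ => hz⟩

theorem PL.ball {A : ℕ → Set E} (n : ℕ) (h : ∀ j < n, PL (A j)) : PL {x | ∀ j < n, x ∈ A j} := by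
  induction n with
  | zero =>
    have : {x : E | ∀ j < 0, x ∈ A j} = {_x : E | True} := by
      ext x; simp
    rw [this]
    exact PL.setOf_const _
  | succ n ih =>
    have : {x : E | ∀ j < n + 1, x ∈ A j} = {x | ∀ j < n, x ∈ A j} ∩ A n := by
      ext x
      constructor
      · intro hx
        exact ⟨fun j hj => hx j (by omega), hx n (by omega)⟩
      · rintro ⟨h1, h2⟩ j hj
        rcases Nat.lt_succ_iff_lt_or_eq.1 hj with h | rfl
        · exact h1 j h
        · exact h2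
    rw [this]
    exact (ih fun j hj => h j (by omega)).inter (h n (by omega))

theorem PL.le {f g : E → ℝ} (hf : Aff f) (hg : Aff g) : PL {x | f x ≤ g x} := by
  have h : Aff fun x => (f x, g x) := by
    refine ⟨hf.1.prodMk hg.1, fun z x s => ?_⟩
    change (f (pt z x s), g (pt z x s)) = _
    rw [hf.2, hg.2]
    ext <;> simp [pt]
  have h2 : PL {p : ℝ × ℝ | p.1 ≤ p.2} := by
    refine PL.of_closed_convex (isClosed_le continuous_fst continuous_snd) ?_
    intro x hx y hy a b ha hb hab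
    simp only [mem_ofPred_eq, Prod.fst_add, Prod.smul_fst, smul_eq_mul, Prod.snd_add,
      Prod.smul_snd] at *
    nlinarith [mul_le_mul_of_nonneg_left hx ha, mul_le_mul_of_nonneg_left hy hb]
  exact h2.preimage h

theorem PL.eq {f g : E → ℝ} (hf : Aff f) (hg : Aff g) : PL {x | f x = g x} := by
  have : {x | f x = g x} = {x | f x ≤ g x} ∩ {x | g x ≤ f x} := by
    ext x
    exact le_antisymm_iff
  rw [this]
  exact (PL.le hf hg).inter (PL.le hg hf)

theorem Aff.const {F : Type} [NormedAddCommGroup F] [NormedSpace ℝ F] (c : F) :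
    Aff fun _ : E => c :=
  ⟨continuous_const, fun z x s => by simp [pt]⟩

variable {reg : B → Set E}

/-- A relation which is given by finitely many affine maps which are defined on polyhedral cells and
do not increase distances there. -/
structure CellData (reg : B → Set E) (S : Pts reg → Pts reg → Prop) where
  /-- the index type -/
  K : Type
  finite : Finite K
  /-- the block of the cell -/
  bL : K → B
  /-- the block of its image -/
  bR : K → B
  /-- the cell -/
  A : K → Set E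
  /-- the map -/
  f : K → E → E
  pl : ∀ k, PL (A k)
  aff : ∀ k z x s, f k (pt z x s) = pt (f k z) (f k x) s
  iso : ∀ k, ∀ z ∈ A k, ∀ x ∈ A k, dist (f k z) (f k x) ≤ dist z x
  maps : ∀ k, ∀ x ∈ reg (bL k), x ∈ A k → f k x ∈ reg (bR k)
  rel : ∀ x y : Pts reg, S x y ↔ x = y ∨ ∃ k, x.1.1 = bL k ∧ y.1.1 = bR k ∧ x.1.2 ∈ A k ∧
    y.1.2 = f k x.1.2

theorem CellData.gluing {S : Pts reg → Pts reg → Prop} (D : CellData reg S) (hS : Equivalence S)
    (hreg : ∀ b, PL (reg b)) : Gluing reg S := by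
  have hfin := D.finite
  refine ⟨hS, fun x => ?_, fun x => hreg x.1.1 x.1.2, fun x => ?_⟩
  · have : {y | S x y} ⊆ {x} ∪ ⋃ k : D.K, {y | y.1 = (D.bR k, D.f k x.1.2)} := by
      intro y hy
      rcases (D.rel x y).1 hy with h | ⟨k, h1, h2, h3, h4⟩
      · exact Or.inl h.symm
      · exact Or.inr (mem_iUnion.2 ⟨k, Prod.ext h2 h4⟩)
    refine Set.Finite.subset ((finite_singleton _).union (finite_iUnion fun k => ?_)) this
    refine Set.Subsingleton.finite ?_
    intro y hy y' hy'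
    exact Subtype.ext ((show y.1 = _ from hy).trans (show y'.1 = _ from hy').symm)
  · have h1 : ∀ᶠ ρ in 𝓝[>] (0 : ℝ), ∀ k : D.K, Star (D.A k) x.1.2 ρ := by
      rw [eventually_all]
      exact fun k => ev_of_exists (fun ρ ρ' hρ hs => hs.mono hρ) (D.pl k x.1.2)
    obtain ⟨ρ, hs, hρ⟩ := (h1.and self_mem_nhdsWithin).exists
    refine ⟨ρ, hρ, fun z hz z' hzz => ?_⟩
    rcases (D.rel z z').1 hzz with rfl | ⟨k, h1, h2, h3, h4⟩
    · refine ⟨x, hS.refl x, hz.1, le_rfl, fun s _ c c' hc hc' => ?_⟩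
      rw [Subtype.ext (hc.trans hc'.symm)]
      exact hS.refl c'
    · have hst := hs k z.1.2 h3 hz.2
      have hxA : x.1.2 ∈ D.A k := by simpa [pt] using hst 1 (by simp)
      have hxb : x.1.1 = D.bL k := hz.1.symm.trans h1
      let y : Pts reg := ⟨(D.bR k, D.f k x.1.2), D.maps k _ (hxb ▸ x.2) hxA⟩
      refine ⟨y, (D.rel x y).2 (Or.inr ⟨k, hxb, rfl, hxA, rfl⟩), h2, ?_, ?_⟩
      · rw [h4]
        exact D.iso k _ h3 _ hxA
      · intro s h01 c c' hc hc'
        refine (D.rel c c').2 (Or.inr ⟨k, ?_, ?_, ?_, ?_⟩)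
        · rw [hc]; exact hxb
        · rw [hc']
        · rw [hc]; exact hst s h01
        · rw [hc, hc', D.aff, h4]

end Vale.Agent.P215.H579
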