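import Mathlib
import Vale.Agent.P215.H788.Defs
import Vale.Agent.P215.H579.Cells

/-!
# The thickening of a capped grope is glued from polyhedral blocks
-/

noncomputable section

namespace Vale.Agent.P215.H579

open Set Topology unitInterval Filter
open Vale.Agent.P215.H788

/-! ### Elementary polyhedral sets -/

theorem aff_fst {F F' : Type} [NormedAddCommGroup F] [NormedSpace ℝ F] [NormedAddCommGroup F']
    [NormedSpace ℝ F'] : Aff (Prod.fst : F × F' → F) :=
  ⟨continuous_fst, fun z x s => by simp [pt, AffineMap.lineMap_apply]⟩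

theorem aff_snd {F F' : Type} [NormedAddCommGroup F] [NormedSpace ℝ F] [NormedAddCommGroup F']
    [NormedSpace ℝ F'] : Aff (Prod.snd : F × F' → F') :=
  ⟨continuous_snd, fun z x s => by simp [pt, AffineMap.lineMap_apply]⟩

theorem Aff.comp {F F' F'' : Type} [NormedAddCommGroup F] [NormedSpace ℝ F]
    [NormedAddCommGroup F'] [NormedSpace ℝ F'] [NormedAddCommGroup F''] [NormedSpace ℝ F'']
    {g : F' → F''} {f : F → F'} (hg : Aff g) (hf : Aff f) : Aff fun x => g (f x) :=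
  ⟨hg.1.comp hf.1, fun z x s => by dsimp only; rw [hf.2, hg.2]⟩

theorem Aff.prodMk {F F' F'' : Type} [NormedAddCommGroup F] [NormedSpace ℝ F]
    [NormedAddCommGroup F'] [NormedSpace ℝ F'] [NormedAddCommGroup F''] [NormedSpace ℝ F'']
    {g : F → F''} {f : F → F'} (hf : Aff f) (hg : Aff g) : Aff fun x => (f x, g x) :=
  ⟨hf.1.prodMk hg.1, fun z x s => by
    dsimp only
    rw [hf.2, hg.2]
    ext <;> simp [pt, AffineMap.lineMap_apply]⟩

theorem Aff.add_const {F : Type} [NormedAddCommGroup F] [NormedSpace ℝ F] {f : F → ℝ}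
    (hf : Aff f) (c : ℝ) : Aff fun x => f x + c :=
  ⟨hf.1.add continuous_const, fun z x s => by
    dsimp only
    rw [hf.2]
    simp [pt, AffineMap.lineMap_apply]
    ring⟩

theorem Aff.const_add {F : Type} [NormedAddCommGroup F] [NormedSpace ℝ F] {f : F → ℝ}
    (hf : Aff f) (c : ℝ) : Aff fun x => c + f x := by
  simpa only [add_comm] using hf.add_const c

theorem Aff.sub_const {F : Type} [NormedAddCommGroup F] [NormedSpace ℝ F] {f : F → ℝ}
    (hf : Aff f) (c : ℝ) : Aff fun x => f x - c := by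
  simpa only [sub_eq_add_neg] using hf.add_const (-c)

theorem Aff.const_sub {F : Type} [NormedAddCommGroup F] [NormedSpace ℝ F] {f : F → ℝ}
    (hf : Aff f) (c : ℝ) : Aff fun x => c - f x :=
  ⟨continuous_const.sub hf.1, fun z x s => by
    dsimp only
    rw [hf.2]
    simp [pt, AffineMap.lineMap_apply]
    ring⟩


section

variable {F : Type} [NormedAddCommGroup F] [NormedSpace ℝ F]

theorem PL.and {p q : F → Prop} (hp : PL {x | p x}) (hq : PL {x | q x}) :
    PL {x | p x ∧ q x} := hp.inter hq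

theorem PL.or {p q : F → Prop} (hp : PL {x | p x}) (hq : PL {x | q x}) :
    PL {x | p x ∨ q x} := hp.union hq

theorem PL.mem_Icc {f : F → ℝ} (hf : Aff f) (a b : ℝ) : PL {x | f x ∈ Icc a b} :=
  PL.and (PL.le (Aff.const a) hf) (PL.le hf (Aff.const b))

theorem PL.eq_const {f : F → ℝ} (hf : Aff f) (a : ℝ) : PL {x | f x = a} :=
  PL.eq hf (Aff.const a)

theorem PL.mem_Sq {f g : F → ℝ} (hf : Aff f) (hg : Aff g) (L : ℝ) : PL {x | (f x, g x) ∈ Sq L} :=
  PL.and (PL.mem_Icc hf 0 L) (PL.mem_Icc hg 0 L)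

theorem PL.mem_Fib {f g : F → ℝ} (hf : Aff f) (hg : Aff g) : PL {x | (f x, g x) ∈ Fib} :=
  PL.and (PL.mem_Icc hf 1 3) (PL.mem_Icc hg 1 3)

theorem PL.mem_bdSq {f g : F → ℝ} (hf : Aff f) (hg : Aff g) (L : ℝ) :
    PL {x | (f x, g x) ∈ bdSq L} :=
  PL.and (PL.mem_Sq hf hg L) (PL.or (PL.eq_const hf _) (PL.or (PL.eq_const hf _)
    (PL.or (PL.eq_const hg _) (PL.eq_const hg _))))

theorem PL.mem_bdFib {f g : F → ℝ} (hf : Aff f) (hg : Aff g) :
    PL {x | (f x, g x) ∈ bdFib} :=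
  PL.and (PL.mem_Fib hf hg) (PL.or (PL.eq_const hf _) (PL.or (PL.eq_const hf _)
    (PL.or (PL.eq_const hg _) (PL.eq_const hg _))))

theorem PL.not_mem_hole {f g : F → ℝ} (hf : Aff f) (hg : Aff g) (j : ℕ) :
    PL {x | (f x, g x) ∉ hole j} := by
  have : {x | (f x, g x) ∉ hole j} = {x | f x ≤ 4 * (j : ℝ) + 1 ∨ 4 * (j : ℝ) + 3 ≤ f x ∨
      g x ≤ 1 ∨ 3 ≤ g x} := by
    ext x
    simp only [hole, mem_ofPred_eq, mem_Ioo, not_and_or, not_lt]
    tauto
  rw [this]
  exact PL.or (PL.le hf (Aff.const _)) (PL.or (PL.le (Aff.const _) hf)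
    (PL.or (PL.le hg (Aff.const _)) (PL.le (Aff.const _) hg)))

theorem PL.forall_lt {p : ℕ → F → Prop} (n : ℕ) (h : ∀ j, PL {x | p j x}) :
    PL {x | ∀ j < n, p j x} :=
  PL.ball (A := fun j => {x | p j x}) n fun j _ => h j

end

/-! ### The coordinates -/

theorem aff1 : Aff fun x : H788.E => x.1.1 := aff_fst.comp aff_fst
theorem aff2 : Aff fun x : H788.E => x.1.2 := aff_snd.comp aff_fst
theorem aff3 : Aff fun x : H788.E => x.2.1.1 := aff_fst.comp (aff_fst.comp aff_snd)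
theorem aff4 : Aff fun x : H788.E => x.2.1.2 := aff_snd.comp (aff_fst.comp aff_snd)
theorem aff5 : Aff fun x : H788.E => x.2.2.1 := aff_fst.comp (aff_snd.comp aff_snd)
theorem aff6 : Aff fun x : H788.E => x.2.2.2 := aff_snd.comp (aff_snd.comp aff_snd)

theorem PL.q_zero : PL {x : H788.E | x.2.1 = 0} := by
  have : {x : H788.E | x.2.1 = 0} = {x | x.2.1.1 = 0 ∧ x.2.1.2 = 0} := by
    ext x
    exact Prod.ext_iff
  rw [this]
  exact PL.and (PL.eq_const aff3 _) (PL.eq_const aff4 _)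

variable (G : CappedGrope)

theorem four_le_L : 4 ≤ G.L := by
  unfold CappedGrope.L
  have : (1 : ℝ) ≤ ((1 + G.genera.length + G.genera.sum + 2 * G.plumbings.length : ℕ) : ℝ) := by
    exact_mod_cast (by omega)
  linarith

theorem lt_of_lt_genusOf {l : List ℕ} {s j : ℕ} (h : j < genusOf l s) :
    s ≤ l.length ∧ j < l.length + l.sum := by
  cases s with
  | zero => exact ⟨Nat.zero_le _, by have : j < l.length := h; omega⟩
  | succ i =>
    have h' : j < l.getD i 0 := h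
    by_cases hi : i < l.length
    · rw [List.getD_eq_getElem _ _ hi] at h'
      have := List.single_le_sum (l := l) (fun x _ => Nat.zero_le x) _ (List.getElem_mem hi)
      exact ⟨hi, by omega⟩
    · rw [List.getD_eq_default _ _ (by omega)] at h'
      omega

theorem pos_le_L {s j : ℕ} (h : j < G.genus s) : 4 * (j : ℝ) + 4 < G.L := by
  have h1 := (lt_of_lt_genusOf h).2
  have h2 : ((j + 1 : ℕ) : ℝ) < ((1 + G.genera.length + G.genera.sum +
      2 * G.plumbings.length : ℕ) : ℝ) := by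
    exact_mod_cast (by omega)
  unfold CappedGrope.L
  push_cast at h2 ⊢
  linarith

theorem plumb_le_L {k : ℕ} (h : k < G.plumbings.length) : 8 * (k : ℝ) + 8 < G.L := by
  have h2 : ((2 * (k + 1) : ℕ) : ℝ) < ((1 + G.genera.length + G.genera.sum +
      2 * G.plumbings.length : ℕ) : ℝ) := by
    exact_mod_cast (by omega)
  unfold CappedGrope.L
  push_cast at h2 ⊢
  linarith

/-! ### The blocks -/

theorem bdSq_subset {L : ℝ} {x : ℝ × ℝ} (h : x ∈ bdSq L) : x ∈ Sq L := h.1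

theorem not_mem_square_iff {L : ℝ} (hL : 4 ≤ L) {p q : ℝ × ℝ} (hp : p ∈ bdSq L)
    (hq : q ∈ bdSq L) : ¬ (p.1 = L ∧ q.1 = L ∧ p.2 ∈ Ioo 1 3 ∧ q.2 ∈ Ioo 1 3) ↔
      (p.1 = 0 ∨ q.1 = 0 ∨ p.2 ≤ 1 ∨ 3 ≤ p.2 ∨ q.2 ≤ 1 ∨ 3 ≤ q.2) := by
  constructor
  · intro h
    by_contra hc
    push Not at hc
    obtain ⟨h1, h2, h3, h4, h5, h6⟩ := hc
    refine h ⟨?_, ?_, ⟨h3, h4⟩, ⟨h5, h6⟩⟩
    · rcases hp.2 with a | a | a | a
      · exact absurd a h1
      · exact a
      · linarith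
      · linarith
    · rcases hq.2 with a | a | a | a
      · exact absurd a h2
      · exact a
      · linarith
      · linarith
  · rintro h ⟨h1, h2, ⟨h3, h4⟩, ⟨h5, h6⟩⟩
    rcases h with a | a | a | a | a | a <;> linarith

theorem pl_region (b : Block) : PL (G.region b) := by
  have hL := four_le_L G
  cases b with
  | base s =>
    exact PL.and (PL.setOf_const _) (PL.and (PL.and (PL.mem_Sq aff1 aff2 G.L)
      (PL.forall_lt (p := fun j (x : H788.E) => x.1 ∉ hole j) (G.genus s)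
        (fun j => PL.not_mem_hole aff1 aff2 j)))
      (PL.and PL.q_zero (PL.mem_Fib aff5 aff6)))
  | handle s j =>
    have : G.region (.handle s j) = {x | j < G.genus s ∧ (x.1 ∈ bdSq G.L ∧ x.2.1 ∈ bdSq G.L ∧
        (x.1.1 = 0 ∨ x.2.1.1 = 0 ∨ x.1.2 ≤ 1 ∨ 3 ≤ x.1.2 ∨ x.2.1.2 ≤ 1 ∨ 3 ≤ x.2.1.2)) ∧
        x.2.2 ∈ Fib} := by
      ext x
      constructor
      · rintro ⟨h1, ⟨h2, h3, h4⟩, h5⟩
        exact ⟨h1, ⟨h2, h3, (not_mem_square_iff hL h2 h3).1 h4⟩, h5⟩
      · rintro ⟨h1, ⟨h2, h3, h4⟩, h5⟩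
        exact ⟨h1, ⟨h2, h3, (not_mem_square_iff hL h2 h3).2 h4⟩, h5⟩
    rw [this]
    exact PL.and (PL.setOf_const _) (PL.and (PL.and (PL.mem_bdSq aff1 aff2 G.L)
      (PL.and (PL.mem_bdSq aff3 aff4 G.L) (PL.or (PL.eq_const aff1 _) (PL.or (PL.eq_const aff3 _)
      (PL.or (PL.le aff2 (Aff.const _)) (PL.or (PL.le (Aff.const _) aff2)
      (PL.or (PL.le aff4 (Aff.const _)) (PL.le (Aff.const _) aff4))))))))
      (PL.mem_Fib aff5 aff6))
  | cap t =>
    exact PL.and (PL.setOf_const _) (PL.and (PL.mem_Sq aff1 aff2 G.L)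
      (PL.and PL.q_zero (PL.mem_Fib aff5 aff6)))

/-! ### Compactness -/

theorem mem_Sq_bound {L : ℝ} {p : ℝ × ℝ} (h : p ∈ Sq L) : |p.1| ≤ L ∧ |p.2| ≤ L := by
  obtain ⟨⟨h1, h2⟩, ⟨h3, h4⟩⟩ := h
  exact ⟨abs_le.2 ⟨by linarith, h2⟩, abs_le.2 ⟨by linarith, h4⟩⟩

theorem mem_Fib_bound {L : ℝ} (hL : 4 ≤ L) {p : ℝ × ℝ} (h : p ∈ Fib) :
    |p.1| ≤ L ∧ |p.2| ≤ L := by
  obtain ⟨⟨h1, h2⟩, ⟨h3, h4⟩⟩ := h
  exact ⟨abs_le.2 ⟨by linarith, by linarith⟩, abs_le.2 ⟨by linarith, by linarith⟩⟩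

theorem isCompact_region (b : Block) : IsCompact (G.region b) := by
  refine Metric.isCompact_of_isClosed_isBounded (pl_region G b).isClosed ?_
  refine (Metric.isBounded_closedBall (x := (0 : H788.E)) (r := G.L)).subset ?_
  have hL := four_le_L G
  intro x hx
  have h3 : x.2.2 ∈ Fib := by
    cases b with
    | base s => exact hx.2.2.2
    | handle s j => exact hx.2.2
    | cap t => exact hx.2.2.2
  have h1 : x.1 ∈ Sq G.L := by
    cases b with
    | base s => exact hx.2.1.1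
    | handle s j => exact hx.2.1.1.1
    | cap t => exact hx.2.1
  have h2 : |x.2.1.1| ≤ G.L ∧ |x.2.1.2| ≤ G.L := by
    cases b with
    | base s =>
      have : x.2.1 = 0 := hx.2.2.1
      rw [this]
      simp only [Prod.fst_zero, Prod.snd_zero, abs_zero]
      constructor <;> linarith
    | handle s j => exact mem_Sq_bound hx.2.1.2.1.1
    | cap t =>
      have : x.2.1 = 0 := hx.2.2.1
      rw [this]
      simp only [Prod.fst_zero, Prod.snd_zero, abs_zero]
      constructor <;> linarith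
  have h1' := mem_Sq_bound h1
  have h3' := mem_Fib_bound hL h3
  obtain ⟨⟨x1, x2⟩, ⟨x3, x4⟩, ⟨x5, x6⟩⟩ := x
  simp only [mem_closedBall_zero_iff, Prod.norm_mk, Real.norm_eq_abs, sup_le_iff]
  exact ⟨h1', h2, h3'⟩

/-- The bound for the indices of the blocks. -/
def bd : ℕ := G.genera.length + G.genera.sum + 1

theorem finite_blocks : {b : Block | (G.region b).Nonempty}.Finite := by
  have : {b : Block | (G.region b).Nonempty} ⊆
      (⋃ s : Fin (bd G), {Block.base s}) ∪ ((⋃ x : Fin (bd G) × Fin (bd G), {Block.handle x.1 x.2}) ∪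
        (⋃ x : Fin (bd G) × Fin (bd G) × Bool, {Block.cap (x.1, x.2.1, x.2.2)})) := by
    rintro b ⟨x, hx⟩
    cases b with
    | base s =>
      have := lt_of_lt_genusOf hx.1
      exact Or.inl (mem_iUnion.2 ⟨⟨s, by unfold bd; omega⟩, rfl⟩)
    | handle s j =>
      have := lt_of_lt_genusOf hx.1
      exact Or.inr (Or.inl (mem_iUnion.2 ⟨(⟨s, by unfold bd; omega⟩, ⟨j, by unfold bd; omega⟩),
        rfl⟩))
    | cap t =>
      have := lt_of_lt_genusOf hx.1.1
      exact Or.inr (Or.inr (mem_iUnion.2 ⟨(⟨t.1, by unfold bd; omega⟩,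
        ⟨t.2.1, by unfold bd; omega⟩, t.2.2), rfl⟩))
  refine Set.Finite.subset ?_ this
  exact (finite_iUnion fun _ => finite_singleton _).union
    ((finite_iUnion fun _ => finite_singleton _).union (finite_iUnion fun _ => finite_singleton _))

theorem compactSpace_pts : CompactSpace (Pts G.region) := by
  refine isCompact_iff_compactSpace (s := {x : Block × H788.E | x.2 ∈ G.region x.1}) |>.1 ?_
  have : {x : Block × H788.E | x.2 ∈ G.region x.1} =
      ⋃ b ∈ {b : Block | (G.region b).Nonempty}, {b} ×ˢ G.region b := by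
    ext ⟨b, x⟩
    simp only [mem_ofPred_eq, mem_iUnion, mem_prod, mem_singleton_iff, exists_prop]
    constructor
    · intro h
      exact ⟨b, ⟨x, h⟩, rfl, h⟩
    · rintro ⟨b', -, rfl, h⟩
      exact h
  rw [this]
  exact (finite_blocks G).isCompact_biUnion fun b _ => isCompact_singleton.prod (isCompact_region G b)

end Vale.Agent.P215.H579
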