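import Mathlib
import Vale.Agent.P215.H579.Model

/-!
# The identifications of the thickening
-/

noncomputable section

namespace Vale.Agent.P215.H579

open Set Topology unitInterval Filter
open Vale.Agent.P215.H788

/-- The reflection, for a negative sign. -/
def rf (b : Bool) (u : ℝ × ℝ) : ℝ × ℝ := (if b then u.1 else 4 - u.1, u.2)

theorem rf_true (u : ℝ × ℝ) : rf true u = u := rfl
theorem rf_false (u : ℝ × ℝ) : rf false u = refl u := rfl

theorem rf_rf (b : Bool) (u : ℝ × ℝ) : rf b (rf b u) = u := by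
  cases b
  · simp [rf]
  · simp [rf]

theorem rf_mem {b : Bool} {u : ℝ × ℝ} (hu : u ∈ Fib) : rf b u ∈ Fib := by
  obtain ⟨⟨h1, h2⟩, h3⟩ := hu
  cases b
  · refine ⟨⟨?_, ?_⟩, h3⟩ <;> simp only [rf, Bool.false_eq_true, if_false] <;> linarith
  · exact ⟨⟨h1, h2⟩, h3⟩

theorem rf_inj {b : Bool} {u v : ℝ × ℝ} (h : rf b u = rf b v) : u = v := by
  rw [← rf_rf b u, h, rf_rf]

/-- The gluing map of a tip. -/
def tipMap : Bool → ℝ × ℝ → ℝ × ℝ → H788.E
  | false, z, v => (z, (0, v.1), (3, v.2))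
  | true, z, v => ((0, v.1), z, (1, v.2))

variable (G : CappedGrope)

theorem glue_iff (p q : Block × H788.E) : G.Glue p q ↔
    (∃ (s j : ℕ) (a v : ℝ × ℝ), a ∈ bdFib ∧ p = (.base s, ((4 * j + a.1, a.2), 0, v)) ∧
      q = (.handle s j, ((G.L, a.2), (G.L, a.1), v))) ∨
    (∃ (s j : ℕ) (b : Bool) (z v : ℝ × ℝ), z ∈ bdSq G.L ∧ v ∈ Fib ∧
      p = (nextBlock (s, j, b), (z, 0, v)) ∧ q = (.handle s j, tipMap b z v)) ∨
    (∃ (k : ℕ) (c c' : Tip) (b : Bool) (u v : ℝ × ℝ), G.plumbings[k]? = some (c, c', b) ∧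
      u ∈ Fib ∧ v ∈ Fib ∧ p = (.cap c, ((8 * k + u.1, u.2), 0, v)) ∧
      q = (.cap c', ((8 * k + 4 + (rf b v).1, (rf b v).2), 0, rf b u))) := by
  constructor
  · intro h
    cases h with
    | hole s j a v ha => exact Or.inl ⟨s, j, a, v, ha, rfl, rfl⟩
    | fst s j z v hz hv => exact Or.inr (Or.inl ⟨s, j, false, z, v, hz, hv, rfl, rfl⟩)
    | snd s j z v hz hv => exact Or.inr (Or.inl ⟨s, j, true, z, v, hz, hv, rfl, rfl⟩)
    | pos k c c' h u v hu hv =>
      exact Or.inr (Or.inr ⟨k, c, c', true, u, v, h, hu, hv, rfl, rfl⟩)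
    | neg k c c' h u v hu hv =>
      exact Or.inr (Or.inr ⟨k, c, c', false, u, v, h, hu, hv, rfl, rfl⟩)
  · rintro (⟨s, j, a, v, ha, rfl, rfl⟩ | ⟨s, j, b, z, v, hz, hv, rfl, rfl⟩ |
      ⟨k, c, c', b, u, v, h, hu, hv, rfl, rfl⟩)
    · exact .hole s j a v ha
    · cases b
      · exact .fst s j z v hz hv
      · exact .snd s j z v hz hv
    · cases b
      · exact .neg k c c' h u v hu hv
      · exact .pos k c c' h u v hu hv

theorem nextBlock_inj {s j s' j' : ℕ} {b b' : Bool}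
    (h : nextBlock (s, j, b) = nextBlock (s', j', b')) : s = s' ∧ j = j' ∧ b = b' := by
  unfold nextBlock at h
  by_cases h1 : s = 0 ∧ b = false <;> by_cases h2 : s' = 0 ∧ b' = false
  · simp only [h1, h2, and_self, if_true] at h
    obtain ⟨rfl, rfl⟩ := h1
    obtain ⟨rfl, rfl⟩ := h2
    injection h with h
    exact ⟨rfl, by simpa using h, rfl⟩
  · simp [h1, h2] at h
  · simp [h1, h2] at h
  · simpa [h1, h2] using h

theorem nextBlock_ne_handle (t : Tip) (s j : ℕ) : nextBlock t ≠ .handle s j := by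
  unfold nextBlock
  split_ifs <;> simp

/-- A position inside of the square is not on its boundary. -/
theorem inner_not_mem {L : ℝ} {z : ℝ × ℝ} (hz : z ∈ bdSq L) (h1 : 0 < z.1) (h2 : z.1 < L)
    (h3 : 0 < z.2) (h4 : z.2 < L) : False := by
  rcases hz.2 with a | a | a | a <;> linarith

theorem nat_eq_of_real {j j' : ℕ} {c : ℝ} (hc : 4 ≤ c) {a a' : ℝ} (ha : a ∈ Icc (1 : ℝ) 3)
    (ha' : a' ∈ Icc (1 : ℝ) 3) (h : c * j + a = c * j' + a') : j = j' ∧ a = a' := by
  have h1 : j = j' := by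
    rcases lt_trichotomy j j' with hlt | heq | hlt
    · have : (j : ℝ) + 1 ≤ j' := by exact_mod_cast hlt
      nlinarith [ha.1, ha.2, ha'.1, ha'.2]
    · exact heq
    · have : (j' : ℝ) + 1 ≤ j := by exact_mod_cast hlt
      nlinarith [ha.1, ha.2, ha'.1, ha'.2]
  subst h1
  exact ⟨rfl, by linarith⟩

theorem nat_ne_of_real {k k' : ℕ} {a a' : ℝ} (ha : a ∈ Icc (1 : ℝ) 3)
    (ha' : a' ∈ Icc (1 : ℝ) 3) (h : 8 * (k : ℝ) + a = 8 * k' + 4 + a') : False := by
  rcases lt_or_ge k' k with hlt | hge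
  · have : (k' : ℝ) + 1 ≤ k := by exact_mod_cast hlt
    linarith [ha.1, ha.2, ha'.1, ha'.2]
  · have : (k : ℝ) ≤ k' := by exact_mod_cast hge
    linarith [ha.1, ha.2, ha'.1, ha'.2]

theorem bdFib_mem {a : ℝ × ℝ} (h : a ∈ bdFib) : a.1 ∈ Icc (1 : ℝ) 3 ∧ a.2 ∈ Icc (1 : ℝ) 3 := h.1

theorem lt_length_of_getElem? {α : Type} {l : List α} {k : ℕ} {x : α} (h : l[k]? = some x) :
    k < l.length := by
  by_contra hc
  rw [List.getElem?_eq_none (by omega)] at h
  cases h

/-- No point is glued on both sides. -/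
theorem no_chain {p q r : Block × H788.E} (h : G.Glue p q) (h' : G.Glue q r) : False := by
  rw [glue_iff] at h h'
  rcases h with ⟨s, j, a, v, ha, rfl, rfl⟩ | ⟨s, j, b, z, v, hz, hv, rfl, rfl⟩ |
      ⟨k, c, c', b, u, v, hk, hu, hv, rfl, rfl⟩
  · rcases h' with ⟨s', j', a', v', ha', h1, -⟩ | ⟨s', j', b', z', v', hz', hv', h1, -⟩ |
      ⟨k', c₁, c₁', b', u', v', hk', hu', hv', h1, -⟩
    · simp at h1
    · exact nextBlock_ne_handle _ _ _ (congrArg Prod.fst h1).symm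
    · simp at h1
  · rcases h' with ⟨s', j', a', v', ha', h1, -⟩ | ⟨s', j', b', z', v', hz', hv', h1, -⟩ |
      ⟨k', c₁, c₁', b', u', v', hk', hu', hv', h1, -⟩
    · simp at h1
    · exact nextBlock_ne_handle _ _ _ (congrArg Prod.fst h1).symm
    · simp at h1
  · have hkL := plumb_le_L G (lt_length_of_getElem? hk)
    have hk0 : (0 : ℝ) ≤ k := Nat.cast_nonneg k
    have hL := four_le_L G
    have hw := rf_mem (b := b) hv
    rcases h' with ⟨s', j', a', v', ha', h1, -⟩ | ⟨s', j', b', z', v', hz', hv', h1, -⟩ |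
      ⟨k', c₁, c₁', b', u', v', hk', hu', hv', h1, -⟩
    · simp at h1
    · have h2 : ((8 * k + 4 + (rf b v).1, (rf b v).2) : ℝ × ℝ) = z' :=
        congrArg (fun x => x.2.1) h1
      rw [← h2] at hz'
      refine inner_not_mem hz' ?_ ?_ ?_ ?_ <;> dsimp only <;>
        linarith [hw.1.1, hw.1.2, hw.2.1, hw.2.2]
    · have h2 : (8 * (k : ℝ) + 4 + (rf b v).1) = 8 * k' + u'.1 :=
        congrArg (fun x => x.2.1.1) h1
      exact nat_ne_of_real hu'.1 hw.1 h2.symm

/-- The identifications are functional. -/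
theorem glue_functional {p q q' : Block × H788.E} (hq : q.2 ∈ G.region q.1)
    (hq' : q'.2 ∈ G.region q'.1) (h : G.Glue p q) (h' : G.Glue p q') : q = q' := by
  have hL := four_le_L G
  -- a hole and a tip
  have hole_tip : ∀ (s j : ℕ) (a v : ℝ × ℝ), a ∈ bdFib → (((G.L, a.2), (G.L, a.1), v) : H788.E) ∈
      G.region (.handle s j) → ∀ z ∈ bdSq G.L, ((4 * j + a.1, a.2) : ℝ × ℝ) = z → False := by
    intro s j a v ha hr z hz hzz
    have hj : 4 * (j : ℝ) + 4 < G.L := pos_le_L G (show j < G.genus s from hr.1)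
    have hj0 : (0 : ℝ) ≤ j := Nat.cast_nonneg j
    obtain ⟨⟨h1, h2⟩, ⟨h3, h4⟩⟩ := bdFib_mem ha
    rw [← hzz] at hz
    refine inner_not_mem hz ?_ ?_ ?_ ?_ <;> dsimp only <;> linarith
  -- a tip and a plumbing
  have tip_plumb : ∀ (k : ℕ) (x : Tip × Tip × Bool) (u : ℝ × ℝ), G.plumbings[k]? = some x →
      u ∈ Fib → ∀ z ∈ bdSq G.L, ((8 * k + u.1, u.2) : ℝ × ℝ) = z → False := by
    intro k x u hk hu z hz hzz
    have hkL := plumb_le_L G (lt_length_of_getElem? hk)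
    have hk0 : (0 : ℝ) ≤ k := Nat.cast_nonneg k
    obtain ⟨⟨h1, h2⟩, ⟨h3, h4⟩⟩ := hu
    rw [← hzz] at hz
    refine inner_not_mem hz ?_ ?_ ?_ ?_ <;> dsimp only <;> linarith
  rw [glue_iff] at h h'
  rcases h with ⟨s, j, a, v, ha, rfl, rfl⟩ | ⟨s, j, b, z, v, hz, hv, rfl, rfl⟩ |
      ⟨k, c, c', b, u, v, hk, hu, hv, rfl, rfl⟩
  · rcases h' with ⟨s', j', a', v', ha', h1, rfl⟩ | ⟨s', j', b', z', v', hz', hv', h1, rfl⟩ |
      ⟨k', c₁, c₁', b', u', v', hk', hu', hv', h1, rfl⟩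
    · simp only [Prod.mk.injEq, Block.base.injEq] at h1
      obtain ⟨rfl, ⟨h2, h3⟩, -, rfl⟩ := h1
      obtain ⟨rfl, h4⟩ := nat_eq_of_real le_rfl (bdFib_mem ha).1 (bdFib_mem ha').1 h2
      rw [h3, h4]
    · exact (hole_tip s j a v ha hq z' hz' (congrArg (fun x => x.2.1) h1)).elim
    · simp at h1
  · rcases h' with ⟨s', j', a', v', ha', h1, rfl⟩ | ⟨s', j', b', z', v', hz', hv', h1, rfl⟩ |
      ⟨k', c₁, c₁', b', u', v', hk', hu', hv', h1, rfl⟩
    · exact (hole_tip s' j' a' v' ha' hq' z hz (congrArg (fun x => x.2.1) h1).symm).elim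
    · obtain ⟨rfl, rfl, rfl⟩ := nextBlock_inj (congrArg Prod.fst h1)
      have h2 : z = z' := congrArg (fun x => x.2.1) h1
      have h3 : v = v' := congrArg (fun x => x.2.2.2) h1
      rw [h2, h3]
    · exact (tip_plumb k' _ u' hk' hu' z hz (congrArg (fun x => x.2.1) h1).symm).elim
  · rcases h' with ⟨s', j', a', v', ha', h1, rfl⟩ | ⟨s', j', b', z', v', hz', hv', h1, rfl⟩ |
      ⟨k', c₁, c₁', b', u', v', hk', hu', hv', h1, rfl⟩
    · simp at h1
    · exact (tip_plumb k _ u hk hu z' hz' (congrArg (fun x => x.2.1) h1)).elim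
    · simp only [Prod.mk.injEq] at h1
      obtain ⟨-, ⟨h2, h3⟩, -, rfl⟩ := h1
      obtain ⟨rfl, h4⟩ := nat_eq_of_real (by norm_num) hu.1 hu'.1 h2
      rw [hk] at hk'
      simp only [Option.some.injEq, Prod.mk.injEq] at hk'
      obtain ⟨rfl, rfl, rfl⟩ := hk'
      have : u = u' := Prod.ext h4 h3
      rw [this]

theorem tipMap_inj {b b' : Bool} {z v z' v' : ℝ × ℝ} (h : tipMap b z v = tipMap b' z' v') :
    b = b' ∧ z = z' ∧ v = v' := by
  cases b <;> cases b' <;> simp only [tipMap, Prod.mk.injEq] at h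
  · obtain ⟨h1, ⟨-, h2⟩, -, h3⟩ := h
    exact ⟨rfl, h1, Prod.ext h2 h3⟩
  · norm_num at h
  · norm_num at h
  · obtain ⟨⟨-, h1⟩, h2, -, h3⟩ := h
    exact ⟨rfl, h2, Prod.ext h1 h3⟩

/-- The identifications are injective. -/
theorem glue_injective {p q q' : Block × H788.E} (h : G.Glue q p) (h' : G.Glue q' p) :
    q = q' := by
  have hL := four_le_L G
  have hole_tip : ∀ (a v z w : ℝ × ℝ) (b : Bool),
      (((G.L, a.2), (G.L, a.1), v) : H788.E) = tipMap b z w → False := by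
    intro a v z w b h
    cases b <;> simp only [tipMap, Prod.mk.injEq] at h
    · linarith [h.2.1.1]
    · linarith [h.1.1]
  rw [glue_iff] at h h'
  rcases h with ⟨s, j, a, v, ha, rfl, rfl⟩ | ⟨s, j, b, z, v, hz, hv, rfl, rfl⟩ |
      ⟨k, c, c', b, u, v, hk, hu, hv, rfl, rfl⟩
  · rcases h' with ⟨s', j', a', v', ha', rfl, h1⟩ | ⟨s', j', b', z', v', hz', hv', rfl, h1⟩ |
      ⟨k', c₁, c₁', b', u', v', hk', hu', hv', rfl, h1⟩
    · simp only [Prod.mk.injEq, Block.handle.injEq] at h1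
      obtain ⟨⟨rfl, rfl⟩, ⟨-, h2⟩, ⟨-, h3⟩, rfl⟩ := h1
      rw [h2, h3]
    · exact (hole_tip _ _ _ _ _ (congrArg Prod.snd h1)).elim
    · simp at h1
  · rcases h' with ⟨s', j', a', v', ha', rfl, h1⟩ | ⟨s', j', b', z', v', hz', hv', rfl, h1⟩ |
      ⟨k', c₁, c₁', b', u', v', hk', hu', hv', rfl, h1⟩
    · exact (hole_tip _ _ _ _ _ (congrArg Prod.snd h1).symm).elim
    · simp only [Prod.mk.injEq, Block.handle.injEq] at h1
      obtain ⟨⟨rfl, rfl⟩, h2⟩ := h1
      obtain ⟨rfl, rfl, rfl⟩ := tipMap_inj h2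
      rfl
    · simp at h1
  · rcases h' with ⟨s', j', a', v', ha', rfl, h1⟩ | ⟨s', j', b', z', v', hz', hv', rfl, h1⟩ |
      ⟨k', c₁, c₁', b', u', v', hk', hu', hv', rfl, h1⟩
    · simp at h1
    · simp at h1
    · simp only [Prod.mk.injEq] at h1
      obtain ⟨-, ⟨h2, h3⟩, -, h4⟩ := h1
      have h5 : 8 * (k : ℝ) + (rf b v).1 = 8 * k' + (rf b' v').1 := by linarith
      obtain ⟨rfl, h6⟩ := nat_eq_of_real (by norm_num) (rf_mem hv).1 (rf_mem hv').1 h5
      rw [hk] at hk'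
      simp only [Option.some.injEq, Prod.mk.injEq] at hk'
      obtain ⟨rfl, rfl, rfl⟩ := hk'
      have e1 : u = u' := rf_inj h4
      have e2 : v = v' := rf_inj (Prod.ext h6 h3)
      rw [e1, e2]

/-- The equivalence relation. -/
def Rel (x y : Pts G.region) : Prop := x = y ∨ G.Glue x.1 y.1 ∨ G.Glue y.1 x.1

theorem rel_equivalence : Equivalence (Rel G) := by
  refine ⟨fun x => Or.inl rfl, ?_, ?_⟩
  · rintro x y (rfl | h | h)
    · exact Or.inl rfl
    · exact Or.inr (Or.inr h)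
    · exact Or.inr (Or.inl h)
  · rintro x y z (rfl | h | h) (rfl | h' | h')
    · exact Or.inl rfl
    · exact Or.inr (Or.inl h')
    · exact Or.inr (Or.inr h')
    · exact Or.inr (Or.inl h)
    · exact (no_chain G h h').elim
    · exact Or.inl (Subtype.ext (glue_injective G h h'))
    · exact Or.inr (Or.inr h)
    · exact Or.inl (Subtype.ext (glue_functional G x.2 z.2 h h'))
    · exact (no_chain G h' h).elim

/-- The relation by which the thickening is defined. -/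
def glueRel (x y : Pts G.region) : Prop := G.Glue x.1 y.1

theorem quot_mk_eq_iff (x y : Pts G.region) :
    Quot.mk (glueRel G) x = Quot.mk (glueRel G) y ↔ Rel G x y := by
  constructor
  · intro h
    exact (rel_equivalence G).eqvGen_iff.1
      (Relation.EqvGen.mono (r := glueRel G) (p := Rel G) (fun a b h => Or.inr (Or.inl h)) x y
        (Quot.eqvGen_exact h))
  · rintro (rfl | h | h)
    · rfl
    · exact Quot.sound h
    · exact (Quot.sound (r := glueRel G) h).symm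

end Vale.Agent.P215.H579
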