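import Mathlib
import Vale.Agent.P215.H579.Relation

/-!
# The cells of the thickening
-/

noncomputable section

namespace Vale.Agent.P215.H579

open Set Topology unitInterval Filter
open Vale.Agent.P215.H788

variable (G : CappedGrope)

/-- The index type of the cells. -/
abbrev Ix : Type := (Fin (bd G) × Fin (bd G) × Bool) ⊕ ((Fin (bd G) × Fin (bd G) × Bool × Bool) ⊕
  (Fin G.plumbings.length × Bool))

/-- The block of a cell. -/
def cL : Ix G → Block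
  | .inl (s, _, true) => .base s
  | .inl (s, j, false) => .handle s j
  | .inr (.inl (s, j, b, true)) => nextBlock (s, j, b)
  | .inr (.inl (s, j, _, false)) => .handle s j
  | .inr (.inr (k, true)) => .cap (G.plumbings[k]).1
  | .inr (.inr (k, false)) => .cap (G.plumbings[k]).2.1

/-- The block of the image of a cell. -/
def cR : Ix G → Block
  | .inl (s, _, false) => .base s
  | .inl (s, j, true) => .handle s j
  | .inr (.inl (s, j, b, false)) => nextBlock (s, j, b)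
  | .inr (.inl (s, j, _, true)) => .handle s j
  | .inr (.inr (k, false)) => .cap (G.plumbings[k]).1
  | .inr (.inr (k, true)) => .cap (G.plumbings[k]).2.1

/-- The cells. -/
def cA : Ix G → Set H788.E
  | .inl (s, j, true) => {x | (j : ℕ) < G.genus s ∧ (x.1.1 - 4 * (j : ℕ), x.1.2) ∈ bdFib ∧
      x.2.1 = 0}
  | .inl (s, j, false) => {x | (j : ℕ) < G.genus s ∧ x.1.1 = G.L ∧ x.2.1.1 = G.L ∧
      (x.2.1.2, x.1.2) ∈ bdFib}
  | .inr (.inl (s, j, _, true)) => {x | (j : ℕ) < G.genus s ∧ (x.1.1, x.1.2) ∈ bdSq G.L ∧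
      x.2.1 = 0 ∧ (x.2.2.1, x.2.2.2) ∈ Fib}
  | .inr (.inl (s, j, false, false)) => {x | (j : ℕ) < G.genus s ∧ (x.1.1, x.1.2) ∈ bdSq G.L ∧
      x.2.1.1 = 0 ∧ x.2.2.1 = 3 ∧ (x.2.1.2, x.2.2.2) ∈ Fib}
  | .inr (.inl (s, j, true, false)) => {x | (j : ℕ) < G.genus s ∧ (x.2.1.1, x.2.1.2) ∈ bdSq G.L ∧
      x.1.1 = 0 ∧ x.2.2.1 = 1 ∧ (x.1.2, x.2.2.2) ∈ Fib}
  | .inr (.inr (k, true)) => {x | (x.1.1 - 8 * (k : ℕ), x.1.2) ∈ Fib ∧ x.2.1 = 0 ∧
      (x.2.2.1, x.2.2.2) ∈ Fib}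
  | .inr (.inr (k, false)) => {x | (x.1.1 - (8 * (k : ℕ) + 4), x.1.2) ∈ Fib ∧ x.2.1 = 0 ∧
      (x.2.2.1, x.2.2.2) ∈ Fib}

/-- The gluing maps. -/
def cf : Ix G → H788.E → H788.E
  | .inl (_, j, true), x => ((G.L, x.1.2), (G.L, x.1.1 - 4 * (j : ℕ)), x.2.2)
  | .inl (_, j, false), x => ((4 * (j : ℕ) + x.2.1.2, x.1.2), 0, x.2.2)
  | .inr (.inl (_, _, b, true)), x => tipMap b x.1 x.2.2
  | .inr (.inl (_, _, false, false)), x => (x.1, 0, (x.2.1.2, x.2.2.2))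
  | .inr (.inl (_, _, true, false)), x => (x.2.1, 0, (x.1.2, x.2.2.2))
  | .inr (.inr (k, true)), x => ((8 * (k : ℕ) + 4 + (rf (G.plumbings[k]).2.2 x.2.2).1,
      (rf (G.plumbings[k]).2.2 x.2.2).2), 0, rf (G.plumbings[k]).2.2 (x.1.1 - 8 * (k : ℕ), x.1.2))
  | .inr (.inr (k, false)), x => ((8 * (k : ℕ) + (rf (G.plumbings[k]).2.2 x.2.2).1,
      (rf (G.plumbings[k]).2.2 x.2.2).2), 0,
      rf (G.plumbings[k]).2.2 (x.1.1 - (8 * (k : ℕ) + 4), x.1.2))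

theorem pl_cA (k : Ix G) : PL (cA G k) := by
  rcases k with ⟨s, j, d⟩ | ⟨s, j, b, d⟩ | ⟨k, d⟩
  · cases d
    · exact PL.and (PL.setOf_const _) (PL.and (PL.eq_const aff1 _) (PL.and (PL.eq_const aff3 _)
        (PL.mem_bdFib aff4 aff2)))
    · exact PL.and (PL.setOf_const _) (PL.and (PL.mem_bdFib (aff1.sub_const _) aff2) PL.q_zero)
  · cases d
    · cases b
      · exact PL.and (PL.setOf_const _) (PL.and (PL.mem_bdSq aff1 aff2 _)
          (PL.and (PL.eq_const aff3 _) (PL.and (PL.eq_const aff5 _) (PL.mem_Fib aff4 aff6))))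
      · exact PL.and (PL.setOf_const _) (PL.and (PL.mem_bdSq aff3 aff4 _)
          (PL.and (PL.eq_const aff1 _) (PL.and (PL.eq_const aff5 _) (PL.mem_Fib aff2 aff6))))
    · exact PL.and (PL.setOf_const _) (PL.and (PL.mem_bdSq aff1 aff2 _)
        (PL.and PL.q_zero (PL.mem_Fib aff5 aff6)))
  · cases d
    · exact PL.and (PL.mem_Fib (aff1.sub_const _) aff2) (PL.and PL.q_zero (PL.mem_Fib aff5 aff6))
    · exact PL.and (PL.mem_Fib (aff1.sub_const _) aff2) (PL.and PL.q_zero (PL.mem_Fib aff5 aff6))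

theorem rf_pt (b : Bool) (z x : ℝ × ℝ) (s : ℝ) : rf b (pt z x s) = pt (rf b z) (rf b x) s := by
  cases b <;> ext <;> simp [rf, pt, AffineMap.lineMap_apply]
  ring

theorem aff_cf (k : Ix G) (z x : H788.E) (s : ℝ) :
    cf G k (pt z x s) = pt (cf G k z) (cf G k x) s := by
  rcases k with ⟨s, j, d⟩ | ⟨s, j, b, d⟩ | ⟨k, d⟩
  · cases d <;> ext <;> simp [cf, pt, AffineMap.lineMap_apply] <;> ring
  · cases d <;> cases b <;> ext <;> simp [cf, pt, AffineMap.lineMap_apply, tipMap] <;> ring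
  · cases d <;> simp only [cf] <;> generalize (G.plumbings[k]).2.2 = b <;> cases b <;> ext <;>
      simp [pt, AffineMap.lineMap_apply, rf] <;> ring

theorem abs_coord (z x : H788.E) : |z.1.1 - x.1.1| ≤ dist z x ∧ |z.1.2 - x.1.2| ≤ dist z x ∧
    |z.2.1.1 - x.2.1.1| ≤ dist z x ∧ |z.2.1.2 - x.2.1.2| ≤ dist z x ∧
    |z.2.2.1 - x.2.2.1| ≤ dist z x ∧ |z.2.2.2 - x.2.2.2| ≤ dist z x := by
  simp only [Prod.dist_eq, Real.dist_eq, le_sup_iff, le_refl, true_or, or_true, and_self]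

theorem dist_le_of_coord {z x : H788.E} {r : ℝ} (h1 : |z.1.1 - x.1.1| ≤ r)
    (h2 : |z.1.2 - x.1.2| ≤ r) (h3 : |z.2.1.1 - x.2.1.1| ≤ r) (h4 : |z.2.1.2 - x.2.1.2| ≤ r)
    (h5 : |z.2.2.1 - x.2.2.1| ≤ r) (h6 : |z.2.2.2 - x.2.2.2| ≤ r) : dist z x ≤ r := by
  simp only [Prod.dist_eq, Real.dist_eq, sup_le_iff]
  exact ⟨⟨h1, h2⟩, ⟨h3, h4⟩, ⟨h5, h6⟩⟩

theorem dist_cf_le (k : Ix G) (z x : H788.E) : dist (cf G k z) (cf G k x) ≤ dist z x := by
  obtain ⟨h1, h2, h3, h4, h5, h6⟩ := abs_coord z x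
  have h0 : (0 : ℝ) ≤ dist z x := dist_nonneg
  have h1' : |4 - z.1.1 - (4 - x.1.1)| ≤ dist z x := by
    rw [show 4 - z.1.1 - (4 - x.1.1) = -(z.1.1 - x.1.1) by ring, abs_neg]; exact h1
  have h5' : |4 - z.2.2.1 - (4 - x.2.2.1)| ≤ dist z x := by
    rw [show 4 - z.2.2.1 - (4 - x.2.2.1) = -(z.2.2.1 - x.2.2.1) by ring, abs_neg]; exact h5
  have hs : ∀ (c a b : ℝ), |a - b| ≤ dist z x → |c + a - (c + b)| ≤ dist z x := by
    intro c a b h
    rwa [show c + a - (c + b) = a - b by ring]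
  have hm : ∀ (c a b : ℝ), |a - b| ≤ dist z x → |a - c - (b - c)| ≤ dist z x := by
    intro c a b h
    rwa [show a - c - (b - c) = a - b by ring]
  have hc : ∀ c : ℝ, |c - c| ≤ dist z x := by
    intro c
    rw [sub_self, abs_zero]
    exact h0
  rcases k with ⟨s, j, d⟩ | ⟨s, j, b, d⟩ | ⟨k, d⟩
  · cases d
    · exact dist_le_of_coord (hs _ _ _ h4) h2 (hc _) (hc _) h5 h6
    · exact dist_le_of_coord (hc _) h2 (hc _) (hm _ _ _ h1) h5 h6
  · cases d <;> cases b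
    · exact dist_le_of_coord h1 h2 (hc _) (hc _) h4 h6
    · exact dist_le_of_coord h3 h4 (hc _) (hc _) h2 h6
    · exact dist_le_of_coord h1 h2 (hc _) h5 (hc _) h6
    · exact dist_le_of_coord (hc _) h5 h1 h2 (hc _) h6
  · cases d <;> simp only [cf] <;> generalize (G.plumbings[k]).2.2 = b <;> cases b
    · refine dist_le_of_coord (hs _ _ _ h5') h6 (hc _) (hc _) ?_ h2
      have : |4 - (z.1.1 - (8 * (k : ℕ) + 4)) - (4 - (x.1.1 - (8 * (k : ℕ) + 4)))| ≤ dist z x := by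
        rw [show 4 - (z.1.1 - (8 * (k : ℕ) + 4)) - (4 - (x.1.1 - (8 * (k : ℕ) + 4))) =
          -(z.1.1 - x.1.1) by ring, abs_neg]
        exact h1
      exact this
    · exact dist_le_of_coord (hs _ _ _ h5) h6 (hc _) (hc _) (hm _ _ _ h1) h2
    · refine dist_le_of_coord (hs _ _ _ h5') h6 (hc _) (hc _) ?_ h2
      have : |4 - (z.1.1 - 8 * (k : ℕ)) - (4 - (x.1.1 - 8 * (k : ℕ)))| ≤ dist z x := by
        rw [show 4 - (z.1.1 - 8 * (k : ℕ)) - (4 - (x.1.1 - 8 * (k : ℕ))) =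
          -(z.1.1 - x.1.1) by ring, abs_neg]
        exact h1
      exact this
    · exact dist_le_of_coord (hs _ _ _ h5) h6 (hc _) (hc _) (hm _ _ _ h1) h2

/-! ### The images of the cells are in the blocks -/

variable {G}

theorem genus_succ_pos {j : ℕ} (hj : j < G.genus 0) : 0 < G.genus (j + 1) := by
  have hj' : j < G.genera.length := hj
  change 0 < G.genera.getD j 0
  rw [List.getD_eq_getElem _ _ hj']
  exact G.genera_pos _ (List.getElem_mem hj')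

theorem not_mem_hole_of_bdSq {z : ℝ × ℝ} (hz : z ∈ bdSq G.L) {s j : ℕ} (hj : j < G.genus s) :
    z ∉ hole j := by
  rintro ⟨⟨h1, h2⟩, ⟨h3, h4⟩⟩
  have hL := pos_le_L G hj
  have hL' := four_le_L G
  have hj0 : (0 : ℝ) ≤ j := Nat.cast_nonneg j
  exact inner_not_mem hz (by linarith) (by linarith) (by linarith) (by linarith)

theorem not_mem_hole_of_bdFib {a : ℝ × ℝ} (ha : a ∈ bdFib) (j j' : ℕ) :
    ((4 * (j : ℝ) + a.1, a.2) : ℝ × ℝ) ∉ hole j' := by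
  rintro ⟨⟨h1, h2⟩, ⟨h3, h4⟩⟩
  dsimp only at h1 h2 h3 h4
  obtain ⟨⟨⟨a1, a2⟩, ⟨a3, a4⟩⟩, h⟩ := ha
  rcases lt_trichotomy j j' with hlt | rfl | hlt
  · have : (j : ℝ) + 1 ≤ j' := by exact_mod_cast hlt
    linarith
  · rcases h with h | h | h | h <;> linarith
  · have : (j' : ℝ) + 1 ≤ j := by exact_mod_cast hlt
    linarith

theorem mem_region_next {s j : ℕ} (b : Bool) (hj : j < G.genus s) {z v : ℝ × ℝ}
    (hz : z ∈ bdSq G.L) (hv : v ∈ Fib) : ((z, 0, v) : H788.E) ∈ G.region (nextBlock (s, j, b)) := by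
  unfold nextBlock
  split_ifs with h
  · obtain ⟨h1, h2⟩ := h
    dsimp only at h1 h2
    subst h1
    exact ⟨genus_succ_pos hj, ⟨hz.1, fun j' hj' => not_mem_hole_of_bdSq hz hj'⟩, rfl, hv⟩
  · exact ⟨⟨hj, h⟩, hz.1, rfl, hv⟩

theorem left_mem_bdSq {c : ℝ} (hc : c ∈ Icc (1 : ℝ) 3) : ((0, c) : ℝ × ℝ) ∈ bdSq G.L := by
  have hL := four_le_L G
  exact ⟨⟨⟨le_rfl, by dsimp only; linarith⟩, ⟨by dsimp only; linarith [hc.1],
    by dsimp only; linarith [hc.2]⟩⟩, Or.inl rfl⟩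

theorem right_mem_bdSq {c : ℝ} (hc : c ∈ Icc (1 : ℝ) 3) : ((G.L, c) : ℝ × ℝ) ∈ bdSq G.L := by
  have hL := four_le_L G
  exact ⟨⟨⟨by dsimp only; linarith, le_rfl⟩, ⟨by dsimp only; linarith [hc.1],
    by dsimp only; linarith [hc.2]⟩⟩, Or.inr (Or.inl rfl)⟩

theorem mem_region_tip {s j : ℕ} (b : Bool) (hj : j < G.genus s) {z v : ℝ × ℝ}
    (hz : z ∈ bdSq G.L) (hv : v ∈ Fib) : tipMap b z v ∈ G.region (.handle s j) := by
  have hL := four_le_L G
  cases b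
  · refine ⟨hj, ⟨hz, left_mem_bdSq hv.1, ?_⟩, ⟨⟨by norm_num [tipMap], by norm_num [tipMap]⟩, hv.2⟩⟩
    rintro ⟨-, h, -⟩
    dsimp only [tipMap] at h
    linarith
  · refine ⟨hj, ⟨left_mem_bdSq hv.1, hz, ?_⟩, ⟨⟨by norm_num [tipMap], by norm_num [tipMap]⟩, hv.2⟩⟩
    rintro ⟨h, -⟩
    dsimp only [tipMap] at h
    linarith

theorem mem_region_cap {t : Tip} (ht : IsCapped G.genera t) {c : ℝ} {v w : ℝ × ℝ} (hc : 0 ≤ c)
    (hc' : c + 4 ≤ G.L) (hv : v ∈ Fib) (hw : w ∈ Fib) :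
    (((c + v.1, v.2), 0, w) : H788.E) ∈ G.region (.cap t) := by
  have hL := four_le_L G
  obtain ⟨⟨h1, h2⟩, ⟨h3, h4⟩⟩ := hv
  refine ⟨ht, ⟨⟨?_, ?_⟩, ⟨?_, ?_⟩⟩, rfl, hw⟩ <;> dsimp only <;> linarith

theorem maps_cf (k : Ix G) (x : H788.E) (hx : x ∈ G.region (cL G k)) (hA : x ∈ cA G k) :
    cf G k x ∈ G.region (cR G k) := by
  have hL := four_le_L G
  rcases k with ⟨s, j, d⟩ | ⟨s, j, b, d⟩ | ⟨k, d⟩
  · cases d
    · obtain ⟨hj, h1, h2, h3⟩ := hA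
      have hjL := pos_le_L G hj
      have hj0 : (0 : ℝ) ≤ (j : ℕ) := Nat.cast_nonneg _
      obtain ⟨⟨h4, h5⟩, ⟨h6, h7⟩⟩ := bdFib_mem h3
      dsimp only at h4 h5 h6 h7
      refine ⟨by omega, ⟨⟨⟨?_, ?_⟩, ⟨?_, ?_⟩⟩, fun j' hj' => not_mem_hole_of_bdFib h3 j j'⟩, rfl,
        hx.2.2⟩ <;> dsimp only [cf] <;> linarith
    · obtain ⟨hj, h1, h2⟩ := hA
      obtain ⟨h3, h4⟩ := bdFib_mem h1
      refine ⟨hj, ⟨right_mem_bdSq h4, right_mem_bdSq h3, ?_⟩, hx.2.2.2⟩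
      rintro ⟨-, -, ⟨h5, h6⟩, ⟨h7, h8⟩⟩
      dsimp only [cf] at h5 h6 h7 h8
      rcases h1.2 with h | h | h | h <;> dsimp only at h <;> linarith
  · cases d
    · cases b
      · obtain ⟨hj, h1, h2, h3, h4⟩ := hA
        exact mem_region_next false hj h1 h4
      · obtain ⟨hj, h1, h2, h3, h4⟩ := hA
        exact mem_region_next true hj h1 h4
    · obtain ⟨hj, h1, h2, h3⟩ := hA
      exact mem_region_tip b hj h1 h3
  · have hk := plumb_le_L G k.2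
    have hk0 : (0 : ℝ) ≤ (k : ℕ) := Nat.cast_nonneg _
    have hcap := G.isCapped (G.plumbings[k]) (List.getElem_mem k.2)
    cases d
    · obtain ⟨h1, h2, h3⟩ := hA
      exact mem_region_cap hcap.1 (by linarith) (by linarith) (rf_mem h3) (rf_mem h1)
    · obtain ⟨h1, h2, h3⟩ := hA
      exact mem_region_cap hcap.2 (by linarith) (by linarith) (rf_mem h3) (rf_mem h1)

/-! ### The relation in terms of the cells -/

theorem ext6 {x y : H788.E} (h1 : x.1.1 = y.1.1) (h2 : x.1.2 = y.1.2) (h3 : x.2.1.1 = y.2.1.1)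
    (h4 : x.2.1.2 = y.2.1.2) (h5 : x.2.2.1 = y.2.2.1) (h6 : x.2.2.2 = y.2.2.2) : x = y :=
  Prod.ext (Prod.ext h1 h2) (Prod.ext (Prod.ext h3 h4) (Prod.ext h5 h6))

theorem glue_of_cell (k : Ix G) (x : H788.E) (hA : x ∈ cA G k) :
    G.Glue (cL G k, x) (cR G k, cf G k x) ∨ G.Glue (cR G k, cf G k x) (cL G k, x) := by
  rcases k with ⟨s, j, d⟩ | ⟨s, j, b, d⟩ | ⟨k, d⟩
  · cases d
    · obtain ⟨hj, h1, h2, h3⟩ := hA
      refine Or.inr ((glue_iff _ _ _).2 (Or.inl ⟨s, j, (x.2.1.2, x.1.2), x.2.2, h3, rfl, ?_⟩))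
      exact Prod.ext rfl (ext6 h1 rfl h2 rfl rfl rfl)
    · obtain ⟨hj, h1, h2⟩ := hA
      refine Or.inl ((glue_iff _ _ _).2 (Or.inl ⟨s, j, (x.1.1 - 4 * (j : ℕ), x.1.2), x.2.2, h1,
        Prod.ext rfl (ext6 ?_ rfl ?_ ?_ rfl rfl), rfl⟩))
      · dsimp only; ring
      · rw [h2]
      · rw [h2]
  · cases d
    · cases b
      · obtain ⟨hj, h1, h2, h3, h4⟩ := hA
        refine Or.inr ((glue_iff _ _ _).2 (Or.inr (Or.inl ⟨s, j, false, x.1,
          (x.2.1.2, x.2.2.2), h1, h4, rfl, ?_⟩)))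
        exact Prod.ext rfl (ext6 rfl rfl h2 rfl h3 rfl)
      · obtain ⟨hj, h1, h2, h3, h4⟩ := hA
        refine Or.inr ((glue_iff _ _ _).2 (Or.inr (Or.inl ⟨s, j, true, x.2.1,
          (x.1.2, x.2.2.2), h1, h4, rfl, ?_⟩)))
        exact Prod.ext rfl (ext6 h2 rfl rfl rfl h3 rfl)
    · obtain ⟨hj, h1, h2, h3⟩ := hA
      refine Or.inl ((glue_iff _ _ _).2 (Or.inr (Or.inl ⟨s, j, b, x.1, x.2.2, h1, h3,
        Prod.ext rfl (ext6 rfl rfl ?_ ?_ rfl rfl), rfl⟩)))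
      · rw [h2]
      · rw [h2]
  · have hk : G.plumbings[(k : ℕ)]? = some ((G.plumbings[k]).1, (G.plumbings[k]).2.1,
        (G.plumbings[k]).2.2) := by
      rw [List.getElem?_eq_getElem k.2]
      rfl
    cases d
    · obtain ⟨h1, h2, h3⟩ := hA
      refine Or.inr ((glue_iff _ _ _).2 (Or.inr (Or.inr ⟨k, _, _, _,
        rf (G.plumbings[k]).2.2 x.2.2, rf (G.plumbings[k]).2.2 (x.1.1 - (8 * (k : ℕ) + 4), x.1.2),
        hk, rf_mem h3, rf_mem h1, rfl, ?_⟩)))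
      rw [rf_rf, rf_rf]
      refine Prod.ext rfl (ext6 ?_ rfl ?_ ?_ rfl rfl)
      · dsimp only; ring
      · rw [h2]
      · rw [h2]
    · obtain ⟨h1, h2, h3⟩ := hA
      refine Or.inl ((glue_iff _ _ _).2 (Or.inr (Or.inr ⟨k, _, _, _,
        (x.1.1 - 8 * (k : ℕ), x.1.2), x.2.2, hk, h1, h3, ?_, rfl⟩)))
      refine Prod.ext rfl (ext6 ?_ rfl ?_ ?_ rfl rfl)
      · dsimp only; ring
      · rw [h2]
      · rw [h2]

theorem cell_of_glue {p q : Block × H788.E} (hp : p.2 ∈ G.region p.1) (hq : q.2 ∈ G.region q.1)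
    (h : G.Glue p q) : (∃ k : Ix G, p.1 = cL G k ∧ q.1 = cR G k ∧ p.2 ∈ cA G k ∧
      q.2 = cf G k p.2) ∧ (∃ k : Ix G, q.1 = cL G k ∧ p.1 = cR G k ∧ q.2 ∈ cA G k ∧
      p.2 = cf G k q.2) := by
  rw [glue_iff] at h
  rcases h with ⟨s, j, a, v, ha, rfl, rfl⟩ | ⟨s, j, b, z, v, hz, hv, rfl, rfl⟩ |
      ⟨k, c, c', b, u, v, hk, hu, hv, rfl, rfl⟩
  · have hj : j < G.genus s := hq.1
    obtain ⟨b1, b2⟩ := lt_of_lt_genusOf hj
    have hs' : s < bd G := by unfold bd; omega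
    have hj' : j < bd G := by unfold bd; omega
    refine ⟨⟨.inl (⟨s, hs'⟩, ⟨j, hj'⟩, true), rfl, rfl, ⟨hj, ?_, rfl⟩, ?_⟩,
      ⟨.inl (⟨s, hs'⟩, ⟨j, hj'⟩, false), rfl, rfl, ⟨hj, rfl, rfl, ha⟩, rfl⟩⟩
    · dsimp only
      rw [add_sub_cancel_left]
      exact ha
    · refine ext6 rfl rfl rfl ?_ rfl rfl
      dsimp only [cf]
      rw [add_sub_cancel_left]
  · have hj : j < G.genus s := by
      cases b <;> exact hq.1
    obtain ⟨b1, b2⟩ := lt_of_lt_genusOf hj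
    have hs' : s < bd G := by unfold bd; omega
    have hj' : j < bd G := by unfold bd; omega
    refine ⟨⟨.inr (.inl (⟨s, hs'⟩, ⟨j, hj'⟩, b, true)), rfl, rfl, ⟨hj, hz, rfl, hv⟩, rfl⟩,
      ⟨.inr (.inl (⟨s, hs'⟩, ⟨j, hj'⟩, b, false)), rfl, rfl, ?_, ?_⟩⟩
    · cases b
      · exact ⟨hj, hz, rfl, rfl, hv⟩
      · exact ⟨hj, hz, rfl, rfl, hv⟩
    · cases b
      · rfl
      · rfl
  · have hk' := lt_length_of_getElem? hk
    have hk2 : G.plumbings[k] = (c, c', b) := by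
      rw [List.getElem?_eq_getElem hk'] at hk
      exact Option.some.inj hk
    refine ⟨⟨.inr (.inr (⟨k, hk'⟩, true)), ?_, ?_, ⟨?_, rfl, hv⟩, ?_⟩,
      ⟨.inr (.inr (⟨k, hk'⟩, false)), ?_, ?_, ⟨?_, rfl, rf_mem hu⟩, ?_⟩⟩
    · simp only [cL, Fin.getElem_fin, hk2]
    · simp only [cR, Fin.getElem_fin, hk2]
    · dsimp only
      rw [add_sub_cancel_left]
      exact hu
    · simp only [cf, Fin.getElem_fin, hk2, add_sub_cancel_left]
    · simp only [cL, Fin.getElem_fin, hk2]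
    · simp only [cR, Fin.getElem_fin, hk2]
    · dsimp only
      rw [add_sub_cancel_left]
      exact rf_mem hv
    · simp only [cf, Fin.getElem_fin, hk2, add_sub_cancel_left, rf_rf, Prod.mk.eta]

theorem rel_iff (x y : Pts G.region) : Rel G x y ↔ x = y ∨ ∃ k : Ix G, x.1.1 = cL G k ∧
    y.1.1 = cR G k ∧ x.1.2 ∈ cA G k ∧ y.1.2 = cf G k x.1.2 := by
  constructor
  · rintro (h | h | h)
    · exact Or.inl h
    · exact Or.inr (cell_of_glue x.2 y.2 h).1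
    · exact Or.inr (cell_of_glue y.2 x.2 h).2
  · rintro (h | ⟨k, h1, h2, h3, h4⟩)
    · exact Or.inl h
    · have hx : x.1 = (cL G k, x.1.2) := Prod.ext h1 rfl
      have hy : y.1 = (cR G k, cf G k x.1.2) := Prod.ext h2 h4
      refine Or.inr ?_
      rw [hy, hx]
      exact glue_of_cell k x.1.2 h3

variable (G) in
/-- The cells of the thickening. -/
def cellData : CellData G.region (Rel G) where
  K := Ix G
  finite := inferInstance
  bL := cL G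
  bR := cR G
  A := cA G
  f := cf G
  pl := pl_cA G
  aff := aff_cf G
  iso k z _ x _ := dist_cf_le G k z x
  maps := maps_cf
  rel := rel_iff

variable (G) in
theorem gluing : Gluing G.region (Rel G) :=
  (cellData G).gluing (rel_equivalence G) (pl_region G)

variable (G) in
/-- **The fundamental group of the thickening of a capped grope is finitely generated.** -/
theorem fg_thickening (w : G.Thickening) : Group.FG (FundamentalGroup G.Thickening w) := by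
  have := compactSpace_pts G
  exact (gluing G).fg (quot_mk_eq_iff G) w

end Vale.Agent.P215.H579
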