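import Mathlib
import Vale.Agent.P215.H579.ModelCells

/-!
# The interface: what the group theory needs to know about capped gropes and discs
-/

noncomputable section

namespace Vale.Agent.P215.H579

open Set Topology unitInterval
open Vale.Agent.P215.H788

instance countable_cappedGrope : Countable CappedGrope := by
  refine Function.Injective.countable (f := fun G : CappedGrope => (G.genera, G.plumbings)) ?_
  rintro ⟨l, h1, h2, p, h3⟩ ⟨l', h1', h2', p', h3'⟩ h
  simp only [Prod.mk.injEq] at h
  obtain ⟨rfl, rfl⟩ := h
  rfl

theorem simplyConnectedSpace_disc2 : SimplyConnectedSpace (Disc × Disc) := by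
  have : ContractibleSpace Disc :=
    (convex_closedBall (0 : ℝ × ℝ) 1).contractibleSpace ⟨0, by simp⟩
  infer_instance

/-- Any two double point loops at the same double point are homotopic. -/
theorem doublePointLoop_homotopic {W : Type} [TopologicalSpace W] {e : Circ × Disc → W}
    (D : FramedDisc W e) (k : Fin D.n) (l l' : Path (D.fst k) (D.snd k)) :
    (D.doublePointLoop k l).Homotopic (D.doublePointLoop k l') := by
  have := simplyConnectedSpace_disc2
  have h : l.Homotopic l' := SimplyConnectedSpace.paths_homotopic l l'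
  exact (h.map ⟨D.map, D.continuous_map⟩).pathCast rfl (D.map_fst k)

/-- The double point loops are killed by a homomorphism if and only if finitely many elements of
the fundamental group are. -/
theorem exists_finset_kills {W : Type} [TopologicalSpace W] {e : Circ × Disc → W}
    (D : FramedDisc W e) (x₀ : W) : ∃ R : Set (FundamentalGroup W x₀), R.Finite ∧
      ∀ (Γ : Type) [Group Γ] (φ : FundamentalGroup W x₀ →* Γ), D.Kills φ ↔ ∀ w ∈ R, φ w = 1 := by
  classical
  have := simplyConnectedSpace_disc2
  let l : ∀ k : Fin D.n, Path (D.fst k) (D.snd k) := fun k => PathConnectedSpace.somePath _ _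
  let T : Set (Fin D.n) := {k | Joined x₀ (D.map (D.fst k))}
  let c : ∀ k : T, Path x₀ (D.map (D.fst k)) := fun k => k.2.somePath
  let g : ∀ k : T, FundamentalGroup W x₀ := fun k => FundamentalGroup.fromPath
    (Path.Homotopic.Quotient.mk (((c k).trans (D.doublePointLoop k (l k))).trans (c k).symm))
  refine ⟨range g, finite_range g, fun Γ _ φ => ⟨?_, ?_⟩⟩
  · rintro h _ ⟨k, rfl⟩
    exact h k (c k) (l k)
  · intro h k c' l'
    have hk : k ∈ T := ⟨c'⟩
    have h1 : φ (g ⟨k, hk⟩) = 1 := h _ ⟨⟨k, hk⟩, rfl⟩
    let γ : FundamentalGroup W x₀ := FundamentalGroup.fromPath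
      (Path.Homotopic.Quotient.mk (c'.trans (c ⟨k, hk⟩).symm))
    have h2 : FundamentalGroup.fromPath (Path.Homotopic.Quotient.mk
        ((c'.trans (D.doublePointLoop k l')).trans c'.symm)) = γ⁻¹ * g ⟨k, hk⟩ * γ := by
      rw [FundamentalGroup.mul_def, FundamentalGroup.mul_def, FundamentalGroup.inv_def]
      have h3 := Path.Homotopic.Quotient.eq.2 (doublePointLoop_homotopic D k l' (l k))
      simp only [γ, g, FundamentalGroup.fromPath, FundamentalGroup.fromArrow]
      rw [← Path.Homotopic.Quotient.mk_symm, Path.trans_symm, Path.symm_symm]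
      simp only [Path.Homotopic.Quotient.mk_trans, Path.Homotopic.Quotient.mk_symm,
        Path.Homotopic.Quotient.trans_assoc, h3]
      rw [← Path.Homotopic.Quotient.trans_assoc (Path.Homotopic.Quotient.mk (c ⟨k, hk⟩)).symm,
        Path.Homotopic.Quotient.symm_trans, Path.Homotopic.Quotient.refl_trans,
        ← Path.Homotopic.Quotient.trans_assoc (Path.Homotopic.Quotient.mk (c ⟨k, hk⟩)).symm,
        Path.Homotopic.Quotient.symm_trans, Path.Homotopic.Quotient.refl_trans]
    rw [h2, map_mul, map_mul, h1, mul_one, ← map_mul, inv_mul_cancel, map_one]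

end Vale.Agent.P215.H579
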